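import Vale.Agent.P291.H846.Lead
import Vale.Agent.P291.B2Blk

/-!
# P291 / H846: group sums of monomials and the image of the cluster map
-/

set_option linter.unusedSectionVars false

open MvPolynomial

namespace Vale.Agent.P291

namespace H846

variable {I E B Λ : Type*} [Fintype E] [DecidableEq I] [Fintype B] [DecidableEq B]
  [CommRing Λ] [IsDomain Λ]
variable (Q : QD I E B Λ)

lemma perm_apply_inv (σ : Equiv.Perm B) (b : B) : σ (σ⁻¹ b) = b := σ.apply_symm_apply b

/-- stabiliser of `lam` in `W` -/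
def Gam (lam : B → ℤ) : Finset (Equiv.Perm B) := Q.Wf.filter fun σ => lact σ lam = lam

lemma mem_Gam {lam : B → ℤ} {σ : Equiv.Perm B} : σ ∈ Gam Q lam ↔ σ ∈ Q.W ∧ lact σ lam = lam := by
  rw [Gam, Finset.mem_filter, mem_Wf]

variable (Λ) in
/-- sum of the images of the monomial `m` under the stabiliser of `lam` -/
noncomputable def GS' (Q : QD I E B Λ) (lam : B → ℤ) (m : B →₀ ℕ) : SS B Λ :=
  ∑ σ ∈ Gam Q lam, monomial (m.mapDomain σ) 1

variable {Q}

lemma lact_inv_fix {σ : Equiv.Perm B} {lam : B → ℤ} (h : lact σ lam = lam) :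
    lact σ⁻¹ lam = lam := by
  conv_lhs => rw [← h]
  exact XB.lact_inv_cancel σ lam

lemma lam_apply {σ : Equiv.Perm B} {lam : B → ℤ} (h : lact σ lam = lam) (b : B) :
    lam (σ b) = lam b := by
  conv_lhs => rw [← h]
  simp [lact]

lemma GS_inv (lam : B → ℤ) (m : B →₀ ℕ) : Q.InvL lam (GS' Λ Q lam m) := by
  intro τ hτ hτl
  unfold GS'
  rw [map_sum]
  refine Finset.sum_nbij' (i := fun σ => τ * σ) (j := fun σ => τ⁻¹ * σ) ?_ ?_ ?_ ?_ ?_
  · intro σ hσ
    rw [mem_Gam] at hσ ⊢
    exact ⟨Q.W.mul_mem hτ hσ.1, by rw [XB.lact_mul, hσ.2, hτl]⟩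
  · intro σ hσ
    rw [mem_Gam] at hσ ⊢
    exact ⟨Q.W.mul_mem (Q.W.inv_mem hτ) hσ.1, by rw [XB.lact_mul, hσ.2, lact_inv_fix hτl]⟩
  · intro σ _; simp
  · intro σ _; simp
  · intro σ _
    rw [rename_monomial, ← Finsupp.mapDomain_comp]
    rfl

/-- conjugation -/
lemma rename_GS {σ : Equiv.Perm B} (hσ : σ ∈ Q.W) (lam : B → ℤ) (m : B →₀ ℕ) :
    rename σ (GS' Λ Q lam m) = GS' Λ Q (lact σ lam) (m.mapDomain σ) := by
  unfold GS'
  rw [map_sum]
  refine Finset.sum_nbij' (i := fun τ => σ * τ * σ⁻¹) (j := fun τ => σ⁻¹ * τ * σ) ?_ ?_ ?_ ?_ ?_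
  · intro τ hτ
    rw [mem_Gam] at hτ ⊢
    refine ⟨Q.W.mul_mem (Q.W.mul_mem hσ hτ.1) (Q.W.inv_mem hσ), ?_⟩
    rw [XB.lact_mul, XB.lact_mul, XB.lact_inv_cancel, hτ.2]
  · intro τ hτ
    rw [mem_Gam] at hτ ⊢
    refine ⟨Q.W.mul_mem (Q.W.mul_mem (Q.W.inv_mem hσ) hτ.1) hσ, ?_⟩
    rw [XB.lact_mul, XB.lact_mul, hτ.2, XB.lact_inv_cancel]
  · intro τ _; group
  · intro τ _; group
  · intro τ _
    rw [rename_monomial, ← Finsupp.mapDomain_comp, ← Finsupp.mapDomain_comp]
    congr 2
    have : (⇑(σ * τ * σ⁻¹) ∘ ⇑σ) = ⇑σ ∘ ⇑τ := by funext b; simp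
    rw [this]

lemma coeff_GS (lam : B → ℤ) (m m' : B →₀ ℕ) :
    coeff m' (GS' Λ Q lam m) =
      (((Gam Q lam).filter fun σ : Equiv.Perm B => m.mapDomain σ = m').card : Λ) := by
  unfold GS'
  rw [coeff_sum, Finset.card_filter]
  push_cast
  exact Finset.sum_congr rfl fun σ _ => by rw [coeff_monomial]

lemma coeff_GS_self [Algebra ℚ Λ] (lam : B → ℤ) (m : B →₀ ℕ) : coeff m (GS' Λ Q lam m) ≠ 0 := by
  have : CharZero Λ := algebraRat.charZero Λ
  rw [coeff_GS, Nat.cast_ne_zero, ← Nat.pos_iff_ne_zero, Finset.card_pos]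
  refine ⟨1, ?_⟩
  rw [Finset.mem_filter, mem_Gam]
  refine ⟨⟨Q.W.one_mem, XB.lact_one lam⟩, ?_⟩
  simp

lemma coeff_GS_ne {lam : B → ℤ} {m m' : B →₀ ℕ} (h : coeff m' (GS' Λ Q lam m) ≠ 0) :
    ∃ σ ∈ Q.W, lact σ lam = lam ∧ m.mapDomain σ = m' := by
  rw [coeff_GS] at h
  have h1 : 0 < ((Gam Q lam).filter fun σ : Equiv.Perm B => m.mapDomain σ = m').card := by
    rw [Nat.pos_iff_ne_zero]
    intro h0
    rw [h0] at h
    exact h (by simp)
  obtain ⟨σ, hσ⟩ := Finset.card_pos.mp h1
  rw [Finset.mem_filter, mem_Gam] at hσ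
  exact ⟨σ, hσ.1.1, hσ.1.2, hσ.2⟩

lemma mapDomain_eq_self {cl : B → B} {m : B →₀ ℕ} (h : ∀ b, m b ≠ 0 → cl b = b) :
    m.mapDomain cl = m := by
  rw [Finsupp.mapDomain_congr (g := id) (fun b hb => h b (Finsupp.mem_support_iff.mp hb)),
    Finsupp.mapDomain_id]

/-- exponent vectors supported on the boxes with `lam ≤ 0` -/
def Low (lam : B → ℤ) (m : B →₀ ℕ) : Prop := ∀ b, m b ≠ 0 → lam b ≤ 0

lemma Low.mapDomain {lam : B → ℤ} {m : B →₀ ℕ} (h : Low lam m) (σ : Equiv.Perm B) :
    Low (P291.lact σ lam) (m.mapDomain σ) := by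
  intro b hb
  have : m.mapDomain σ b = m (σ⁻¹ b) := by
    conv_lhs => rw [show b = σ (σ⁻¹ b) by simp]
    rw [Finsupp.mapDomain_apply σ.injective]
  rw [this] at hb
  exact h _ hb

lemma rename_cl_GS {lam : B → ℤ} {m : B →₀ ℕ} (hm : Low lam m) {cl : B → B}
    (hcl : Q.IsCl lam cl) : rename cl (GS' Λ Q lam m) = GS' Λ Q lam m := by
  unfold GS'
  rw [map_sum]
  refine Finset.sum_congr rfl fun σ hσ => ?_
  rw [mem_Gam] at hσ
  rw [rename_monomial, mapDomain_eq_self]
  intro b hb
  have := hm.mapDomain σ b hb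
  rw [hσ.2] at this
  exact hcl.1 b this

lemma lam_cl {lam : B → ℤ} (hl : ∀ b, lam b ≤ 1) {cl : B → B} (hcl : Q.IsCl lam cl) (b : B) :
    lam (cl b) ≤ 0 := by
  by_cases h : lam b ≤ 0
  · rw [hcl.1 b h]; exact h
  · exact (hcl.2.1 b (by have := hl b; omega)).le

lemma low_rename {lam : B → ℤ} (hl : ∀ b, lam b ≤ 1) {cl : B → B} (hcl : Q.IsCl lam cl)
    (h : SS B Λ) {m : B →₀ ℕ} (hm : m ∈ (rename cl h).support) : Low lam m := by
  classical
  intro b hb
  have h1 : b ∈ (rename cl h).vars := (mem_vars_iff_mem_support b).mpr ⟨m, hm, Finsupp.mem_support_iff.mpr hb⟩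
  have h2 := vars_rename cl h h1
  rw [Finset.mem_image] at h2
  obtain ⟨c, -, rfl⟩ := h2
  exact lam_cl hl hcl c

/-- permutations of the clusters lift -/
lemma lift_perm {lam : B → ℤ} (hl : ∀ b, lam b ≤ 1) {cl : B → B} (hcl : Q.IsCl lam cl)
    {σ : Equiv.Perm B} (hσ : σ ∈ Q.W) (hσl : lact σ lam = lam) :
    ∃ σ' ∈ Q.W, lact σ' lam = lam ∧ ∀ b, cl (σ' b) = σ (cl b) := by
  classical
  obtain ⟨h1, h2, h3, h4⟩ := hcl
  have hfix := lam_apply hσl
  have hcard : ∀ c : ℤ × B, (Finset.univ.filter fun b => (lam b, σ (cl b)) = c).card =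
      (Finset.univ.filter fun b => (lam b, cl b) = c).card := by
    rintro ⟨l, c⟩
    by_cases hl1 : l = 1
    · subst hl1
      by_cases hc : lam c < 0
      · have hc' : lam (σ⁻¹ c) < 0 := by
          have := hfix (σ⁻¹ c)
          rw [perm_apply_inv] at this
          rw [← this]; exact hc
        have e1 := h4 c hc
        have e2 := h4 (σ⁻¹ c) hc'
        have e3 : lam (σ⁻¹ c) = lam c := by
          have := hfix (σ⁻¹ c)
          rw [perm_apply_inv] at this
          exact this.symm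
        have e4 : (Finset.univ.filter fun b => (lam b, σ (cl b)) = ((1 : ℤ), c)) =
            Finset.univ.filter fun b => lam b = 1 ∧ cl b = σ⁻¹ c := by
          ext b
          simp only [Finset.mem_filter, Finset.mem_univ, true_and, Prod.mk.injEq]
          rw [Equiv.Perm.eq_inv_iff_eq]
        have e5 : (Finset.univ.filter fun b => (lam b, cl b) = ((1 : ℤ), c)) =
            Finset.univ.filter fun b => lam b = 1 ∧ cl b = c := by
          ext b
          simp only [Finset.mem_filter, Finset.mem_univ, true_and, Prod.mk.injEq]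
        rw [e4, e5]
        have : ((Finset.univ.filter fun b => lam b = 1 ∧ cl b = σ⁻¹ c).card : ℤ) =
            (Finset.univ.filter fun b => lam b = 1 ∧ cl b = c).card := by
          rw [e1, e2, e3]
        exact_mod_cast this
      · have e4 : (Finset.univ.filter fun b => (lam b, σ (cl b)) = ((1 : ℤ), c)) = ∅ := by
          rw [Finset.filter_eq_empty_iff]
          intro b _ hb
          rw [Prod.mk.injEq] at hb
          apply hc
          rw [← hb.2, hfix]
          exact h2 b hb.1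
        have e5 : (Finset.univ.filter fun b => (lam b, cl b) = ((1 : ℤ), c)) = ∅ := by
          rw [Finset.filter_eq_empty_iff]
          intro b _ hb
          rw [Prod.mk.injEq] at hb
          apply hc
          rw [← hb.2]
          exact h2 b hb.1
        rw [e4, e5]
    · by_cases hl0 : l ≤ 0
      · have e4 : (Finset.univ.filter fun b => (lam b, σ (cl b)) = (l, c)) =
            if lam c = l then {σ⁻¹ c} else ∅ := by
          ext b
          simp only [Finset.mem_filter, Finset.mem_univ, true_and, Prod.mk.injEq]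
          constructor
          · rintro ⟨hb1, hb2⟩
            rw [h1 b (by rw [hb1]; exact hl0)] at hb2
            have : lam c = l := by rw [← hb2, hfix, hb1]
            rw [if_pos this, Finset.mem_singleton, ← hb2]
            simp
          · intro hb
            split_ifs at hb with hc
            · rw [Finset.mem_singleton] at hb
              subst hb
              have e3 : lam (σ⁻¹ c) = lam c := by
                have := hfix (σ⁻¹ c)
                rw [perm_apply_inv] at this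
                exact this.symm
              refine ⟨by rw [e3, hc], ?_⟩
              rw [h1 _ (by rw [e3, hc]; exact hl0)]
              simp
            · simp at hb
        have e5 : (Finset.univ.filter fun b => (lam b, cl b) = (l, c)) =
            if lam c = l then {c} else ∅ := by
          ext b
          simp only [Finset.mem_filter, Finset.mem_univ, true_and, Prod.mk.injEq]
          constructor
          · rintro ⟨hb1, hb2⟩
            rw [h1 b (by rw [hb1]; exact hl0)] at hb2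
            subst hb2
            rw [if_pos hb1, Finset.mem_singleton]
          · intro hb
            split_ifs at hb with hc
            · rw [Finset.mem_singleton] at hb
              subst hb
              exact ⟨hc, h1 _ (by rw [hc]; exact hl0)⟩
            · simp at hb
        rw [e4, e5]
        split_ifs <;> simp
      · have hno : ∀ b, lam b ≠ l := fun b hb => by
          have := hl b
          omega
        have e4 : (Finset.univ.filter fun b => (lam b, σ (cl b)) = (l, c)) = ∅ := by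
          rw [Finset.filter_eq_empty_iff]
          intro b _ hb
          rw [Prod.mk.injEq] at hb
          exact hno b hb.1
        have e5 : (Finset.univ.filter fun b => (lam b, cl b) = (l, c)) = ∅ := by
          rw [Finset.filter_eq_empty_iff]
          intro b _ hb
          rw [Prod.mk.injEq] at hb
          exact hno b hb.1
        rw [e4, e5]
  obtain ⟨σ', hσ'⟩ := B2.exists_perm (fun b => (lam b, σ (cl b))) (fun b => (lam b, cl b)) hcard
  have hσ1 : ∀ b, lam (σ' b) = lam b := fun b => (Prod.mk.inj (hσ' b)).1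
  have hσ2 : ∀ b, cl (σ' b) = σ (cl b) := fun b => (Prod.mk.inj (hσ' b)).2
  refine ⟨σ', fun b => ?_, ?_, hσ2⟩
  · rw [← h3 (σ' b), hσ2, hσ, h3]
  · funext b
    have := hσ1 (σ'⁻¹ b)
    rw [perm_apply_inv] at this
    exact this.symm

/-- the image of `rename cl` consists of invariant polynomials -/
lemma inv_rename {lam : B → ℤ} (hl : ∀ b, lam b ≤ 1) {cl : B → B} (hcl : Q.IsCl lam cl)
    {h : SS B Λ} (hh : Q.InvL lam h) : Q.InvL lam (rename cl h) := by
  intro σ hσ hσl
  obtain ⟨σ', hσ', hσl', hc⟩ := lift_perm hl hcl hσ hσl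
  rw [rename_rename]
  have : (⇑σ ∘ cl) = cl ∘ ⇑σ' := by funext b; exact (hc b).symm
  rw [this, ← rename_rename, hh σ' hσ' hσl']

/-- invariant polynomials are combinations of group sums -/
lemma eq_sum_GS [Algebra ℚ Λ] {lam : B → ℤ} {f : SS B Λ} (hf : Q.InvL lam f) :
    ∃ c : (B →₀ ℕ) → Λ, f = ∑ m ∈ f.support, c m • GS' Λ Q lam m := by
  have hcard : ((Gam Q lam).card : ℚ) ≠ 0 := by
    rw [Nat.cast_ne_zero, ← Nat.pos_iff_ne_zero, Finset.card_pos]
    exact ⟨1, (mem_Gam Q).mpr ⟨Q.W.one_mem, XB.lact_one lam⟩⟩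
  have h1 : ((Gam Q lam).card : ℚ) • f = ∑ m ∈ f.support, coeff m f • GS' Λ Q lam m := by
    have h2 : ∑ σ ∈ Gam Q lam, rename σ f = ((Gam Q lam).card : ℚ) • f := by
      rw [Finset.sum_congr rfl fun σ hσ => hf σ ((mem_Gam Q).mp hσ).1 ((mem_Gam Q).mp hσ).2,
        Finset.sum_const, ← Nat.cast_smul_eq_nsmul ℚ]
    rw [← h2]
    have h3 : ∀ σ ∈ Gam Q lam, rename σ f =
        ∑ m ∈ f.support, coeff m f • (monomial (m.mapDomain σ) 1 : SS B Λ) := by
      intro σ _
      conv_lhs => rw [f.as_sum]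
      rw [map_sum]
      refine Finset.sum_congr rfl fun m _ => ?_
      rw [rename_monomial, smul_monomial, smul_eq_mul, mul_one]
    rw [Finset.sum_congr rfl h3, Finset.sum_comm]
    refine Finset.sum_congr rfl fun m _ => ?_
    unfold GS'
    rw [Finset.smul_sum]
  refine ⟨fun m => ((Gam Q lam).card : ℚ)⁻¹ • coeff m f, ?_⟩
  have h2 : f = ((Gam Q lam).card : ℚ)⁻¹ • (((Gam Q lam).card : ℚ) • f) := by
    rw [smul_smul, inv_mul_cancel₀ hcard, one_smul]
  refine h2.trans ?_
  rw [h1, Finset.smul_sum]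
  refine Finset.sum_congr rfl fun m _ => ?_
  rw [smul_assoc]

end H846

end Vale.Agent.P291
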