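import Vale.Agent.P291.H846.Sc
import Vale.Agent.P291.H846.Sym

/-!
# P291 / H846: blocks N1b, N1c, N1d
-/

set_option linter.unusedSectionVars false

open MvPolynomial

namespace Vale.Agent.P291

namespace H846

variable {I E B Λ : Type*} [Fintype E] [DecidableEq I] [Fintype B] [DecidableEq B]
  [CommRing Λ] [IsDomain Λ]
variable {Q : QD I E B Λ}

lemma e_ne (lam : B → ℤ) : Q.e lam ≠ 0 := e_ne_zero Q lam

lemma lead_unique {lam : B → ℤ} {h h' : SS B Λ} (hh : toK h * Q.e lam = toK h' * Q.e lam) :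
    h = h' := toK_inj (mul_right_cancel₀ (e_ne lam) hh)

lemma Lead.lact {lam : B → ℤ} {h : SS B Λ} {y : AA B Λ} (hy : Lead Q lam h y)
    {σ : Equiv.Perm B} (hσ : σ ∈ Q.W) : Lead Q (P291.lact σ lam) (rename σ h) y := by
  refine ⟨hy.cc, ?_, ?_, ?_⟩
  · rw [A_inv Q hy.cc.1 hσ, hy.lead, map_mul, act_toK, e_act Q σ hσ]
  · intro mu hmu
    rw [XB.nrm_lact]
    exact hy.nrm_le mu hmu
  · intro mu hmu hn
    rw [XB.nrm_lact] at hn
    obtain ⟨τ, hτ, rfl⟩ := hy.orb mu hmu hn
    refine ⟨τ * σ⁻¹, Q.W.mul_mem hτ (Q.W.inv_mem hσ), ?_⟩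
    rw [XB.lact_mul, XB.lact_inv_cancel]

lemma Lead.smul {lam : B → ℤ} {h : SS B Λ} {y : AA B Λ} (hy : Lead Q lam h y) (c : Λ) :
    Lead Q lam (c • h) (c • y) := by
  have hc : ∀ mu, (c • y).coeff mu = toK (C c) * y.coeff mu := by
    intro mu
    rw [AddMonoidAlgebra.coeff_smul, Finsupp.smul_apply, Algebra.smul_def,
      IsScalarTower.algebraMap_apply Λ (SS B Λ) (KK B Λ)]
    rfl
  refine ⟨hy.cc.smul c, ?_, ?_, ?_⟩
  · rw [hc, hy.lead, MvPolynomial.smul_eq_C_mul, toK_mul]; ring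
  · intro mu hmu
    exact hy.nrm_le mu fun h => hmu (by rw [hc, h, mul_zero])
  · intro mu hmu
    exact hy.orb mu fun h => hmu (by rw [hc, h, mul_zero])

/-- (N1b) -/
theorem lead_step [Algebra ℚ Λ] (hQ : Q.NonzeroLoops) (N : ℤ) : ∀ (n : ℕ) {z : AA B Λ},
    CC Q z → (∀ mu, z.coeff mu ≠ 0 → nrm mu ≤ N) →
    (∀ lam, z.coeff lam ≠ 0 → nrm lam = N → ∃ (h : SS B Λ) (cl : B → B),
      z.coeff lam = toK h * Q.e lam ∧ Q.IsCl lam cl ∧ rename cl h = 0) →
    (z.coeff.support.filter fun mu => nrm mu = N).card = n →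
    ∃ y, CC Q y ∧ y.coeff 0 = 0 ∧ ∀ mu, (z - y).coeff mu ≠ 0 → nrm mu < N := by
  classical
  intro n
  induction n using Nat.strong_induction_on with
  | _ n ih =>
    intro z hz hN hyp hn
    by_cases hex : ∃ lam, z.coeff lam ≠ 0 ∧ nrm lam = N
    swap
    · push Not at hex
      refine ⟨0, CC.zero, by simp, fun mu hmu => ?_⟩
      rw [sub_zero] at hmu
      exact lt_of_le_of_ne (hN mu hmu) (hex mu hmu)
    obtain ⟨lam, hlam, hnl⟩ := hex
    have hmax : ∀ mu, z.coeff mu ≠ 0 → nrm mu ≤ nrm lam := by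
      intro mu hmu; rw [hnl]; exact hN mu hmu
    obtain ⟨h, cl, hh, hcl, h0⟩ := hyp lam hlam hnl
    obtain ⟨h', hh', hinv⟩ := LC Q hQ hz.1 hlam hmax
    have : h = h' := lead_unique (hh.symm.trans hh')
    subst this
    obtain ⟨y, hy, hy0⟩ := exists_lead0 hQ (hz.2 lam hlam) hcl hinv h0
    have hzy : CC Q (z - y) := hz.sub hy.cc
    have hcoe : ∀ mu, (z - y).coeff mu = z.coeff mu - y.coeff mu := fun mu => by
      rw [AddMonoidAlgebra.coeff_sub, Finsupp.sub_apply]
    have hl0 : (z - y).coeff lam = 0 := by rw [hcoe, hy.lead, hh, sub_self]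
    -- exponents of norm N of z - y : exponents of z outside the orbit of lam
    have hout : ∀ mu, (z - y).coeff mu ≠ 0 → nrm mu = N → y.coeff mu = 0 := by
      intro mu hmu hmn
      by_contra hy1
      obtain ⟨σ, hσ, rfl⟩ := hy.orb mu hy1 (by rw [hmn, hnl])
      apply hmu
      rw [A_inv Q hzy.1 hσ, hl0, map_zero]
    have hN' : ∀ mu, (z - y).coeff mu ≠ 0 → nrm mu ≤ N := by
      intro mu hmu
      by_cases hz0 : z.coeff mu = 0
      · have : y.coeff mu ≠ 0 := fun h => hmu (by rw [hcoe, hz0, h, sub_zero])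
        rw [← hnl]; exact hy.nrm_le mu this
      · exact hN mu hz0
    have hsub : ((z - y).coeff.support.filter fun mu => nrm mu = N) ⊆
        (z.coeff.support.filter fun mu => nrm mu = N).erase lam := by
      intro mu hmu
      simp only [Finset.mem_filter, Finsupp.mem_support_iff] at hmu
      have hy1 := hout mu hmu.1 hmu.2
      rw [Finset.mem_erase, Finset.mem_filter, Finsupp.mem_support_iff]
      refine ⟨?_, ?_, hmu.2⟩
      · rintro rfl
        exact hmu.1 hl0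
      · intro hz0
        apply hmu.1
        rw [hcoe, hz0, hy1, sub_zero]
    have hlt : ((z - y).coeff.support.filter fun mu => nrm mu = N).card < n := by
      rw [← hn]
      refine lt_of_le_of_lt (Finset.card_le_card hsub) (Finset.card_erase_lt_of_mem ?_)
      simp [hlam, hnl]
    obtain ⟨y', hy', hy0', hlt'⟩ := ih _ hlt hzy hN' (by
      intro mu hmu hmn
      have hy1 := hout mu hmu hmn
      have hz1 : z.coeff mu ≠ 0 := by
        intro h; apply hmu; rw [hcoe, h, hy1, sub_zero]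
      obtain ⟨h2, cl2, e1, e2, e3⟩ := hyp mu hz1 hmn
      exact ⟨h2, cl2, by rw [hcoe, hy1, sub_zero, e1], e2, e3⟩) rfl
    refine ⟨y + y', hy.cc.add hy', ?_, ?_⟩
    · rw [AddMonoidAlgebra.coeff_add, Finsupp.add_apply, hy0, hy0', add_zero]
    · intro mu hmu
      apply hlt' mu
      rwa [sub_sub]

end H846

end Vale.Agent.P291
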