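import Vale.Agent.P291.H846.Hom

/-!
# P291 / H846: the grading of the Coulomb branch algebra
-/

set_option linter.unusedSectionVars false

open MvPolynomial

namespace Vale.Agent.P291

namespace H846

variable {k I E B Λ : Type*} [Field k] [Fintype E] [DecidableEq I] [Fintype B] [DecidableEq B]
  [CommRing Λ] [IsDomain Λ] [Algebra k Λ]
variable (Q : QD I E B Λ) (G : ℕ → Submodule k (SS B Λ)) [GradedAlgebra G]

/-- compatibility of a grading with the quiver data -/
structure Compat : Prop where
  X_mem : ∀ b, (X b : SS B Λ) ∈ G 1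
  t_mem : ∀ a, (C (Q.t a) : SS B Λ) ∈ G 1
  ren : ∀ (g : B → B) (n : ℕ) (f : SS B Λ), f ∈ G n → rename g f ∈ G n

/-- degree of `e(lam)` -/
def dege (lam : B → ℤ) : ℤ :=
  (∑ p ∈ Q.Wt, ((lam p.2.1 - ext lam p.2.2).toNat : ℤ)) -
    ∑ p ∈ Q.Prs, ((lam p.1 - lam p.2).toNat : ℤ)

variable {Q G}

omit [Fintype B] [DecidableEq B] [IsDomain Λ] [Fintype E] [DecidableEq I] in
lemma xi_mem (hG : Compat Q G) (p : E × B × Option B) : Q.xi p ∈ G 1 := by
  unfold QD.xi
  refine Submodule.add_mem _ (Submodule.sub_mem _ ?_ (hG.X_mem _)) (hG.t_mem _)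
  cases h : p.2.2 with
  | none => simp [xo]
  | some b => simpa [xo] using hG.X_mem b

omit [IsDomain Λ] in
lemma prod_pow_mem {ι : Type*} (s : Finset ι) (f : ι → SS B Λ) (n : ι → ℕ)
    (hf : ∀ i ∈ s, f i ∈ G 1) : ∏ i ∈ s, f i ^ n i ∈ G (∑ i ∈ s, n i) := by
  classical
  induction s using Finset.induction_on with
  | empty => exact SetLike.GradedOne.one_mem
  | insert a s ha ih =>
    rw [Finset.prod_insert ha, Finset.sum_insert ha]
    refine SetLike.mul_mem_graded ?_ (ih fun i hi => hf i (Finset.mem_insert_of_mem hi))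
    have := SetLike.pow_mem_graded (n a) (hf a (Finset.mem_insert_self a s))
    simpa using this

lemma e_hom (hG : Compat Q G) (lam : B → ℤ) : IsHom G (dege Q lam) (Q.e lam) := by
  unfold QD.e dege
  refine IsHom.div (IsHom.toK ?_) (IsHom.toK ?_)
  · rw [← Nat.cast_sum, GZ_natCast]
    exact prod_pow_mem _ _ _ fun p _ => xi_mem hG p
  · rw [← Nat.cast_sum, GZ_natCast]
    exact prod_pow_mem _ _ _ fun p _ => Submodule.sub_mem _ (hG.X_mem _) (hG.X_mem _)

/-- homogeneous element of the big algebra -/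
def HomA (G : ℕ → Submodule k (SS B Λ)) (d : ℤ) (z : AA B Λ) : Prop :=
  ∀ mu, IsHom G d (z.coeff mu)

lemma HomA.zero (d : ℤ) : HomA G d (0 : AA B Λ) := fun mu => by
  simpa using IsHom.zero d

lemma HomA.add {d : ℤ} {z w : AA B Λ} (hz : HomA G d z) (hw : HomA G d w) : HomA G d (z + w) :=
  fun mu => by
    rw [AddMonoidAlgebra.coeff_add, Finsupp.add_apply]
    exact (hz mu).add (hw mu)

lemma HomA.sub {d : ℤ} {z w : AA B Λ} (hz : HomA G d z) (hw : HomA G d w) : HomA G d (z - w) :=
  fun mu => by
    rw [AddMonoidAlgebra.coeff_sub, Finsupp.sub_apply]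
    exact (hz mu).sub (hw mu)

lemma HomA.mul {d e : ℤ} {z w : AA B Λ} (hz : HomA G d z) (hw : HomA G e w) :
    HomA G (d + e) (z * w) := by
  classical
  intro mu
  rw [AddMonoidAlgebra.coeff_mul]
  unfold Finsupp.sum
  refine IsHom.sum _ fun a _ => IsHom.sum _ fun b _ => ?_
  dsimp only
  split_ifs with h
  · exact (hz a).mul (hw b)
  · exact IsHom.zero _

lemma HomA.single {d : ℤ} (mu : B → ℤ) {c : KK B Λ} (hc : IsHom G d c) :
    HomA G d (AddMonoidAlgebra.single mu c) := by
  classical
  intro nu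
  rw [AddMonoidAlgebra.coeff_single, Finsupp.single_apply]
  split_ifs with h
  · exact hc
  · exact IsHom.zero _

lemma HomA.sum {d : ℤ} {ι : Type*} (s : Finset ι) {f : ι → AA B Λ}
    (hf : ∀ i ∈ s, HomA G d (f i)) : HomA G d (∑ i ∈ s, f i) := by
  classical
  induction s using Finset.induction_on with
  | empty => simpa using HomA.zero d
  | insert a s ha ih =>
    rw [Finset.sum_insert ha]
    exact HomA.add (hf a (Finset.mem_insert_self a s))
      (ih fun i hi => hf i (Finset.mem_insert_of_mem hi))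

variable (Q G) in
/-- `z` is a finite sum of homogeneous elements of `A` -/
def HDec (z : AA B Λ) : Prop :=
  ∃ w : ℤ →₀ AA B Λ, (∀ d, w d ∈ Q.A) ∧ (∀ d, HomA G d (w d)) ∧ z = w.sum fun _ x => x

lemma HDec.zero : HDec Q G (0 : AA B Λ) :=
  ⟨0, fun _ => by simp, fun d => by simpa using HomA.zero d, by simp⟩

lemma HDec.of {d : ℤ} {z : AA B Λ} (hz : z ∈ Q.A) (h : HomA G d z) : HDec Q G z := by
  classical
  refine ⟨Finsupp.single d z, fun e => ?_, fun e => ?_, by simp⟩
  · rw [Finsupp.single_apply]
    split_ifs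
    · exact hz
    · exact Subalgebra.zero_mem _
  · rw [Finsupp.single_apply]
    split_ifs with hde
    · subst hde; exact h
    · exact HomA.zero _

lemma HDec.add {z z' : AA B Λ} (hz : HDec Q G z) (hz' : HDec Q G z') : HDec Q G (z + z') := by
  obtain ⟨w, hA, hh, rfl⟩ := hz
  obtain ⟨w', hA', hh', rfl⟩ := hz'
  refine ⟨w + w', fun d => ?_, fun d => ?_, ?_⟩
  · rw [Finsupp.add_apply]; exact Subalgebra.add_mem _ (hA d) (hA' d)
  · rw [Finsupp.add_apply]; exact (hh d).add (hh' d)
  · rw [Finsupp.sum_add_index' (fun _ => rfl) (fun _ _ _ => rfl)]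

lemma HDec.sum {ι : Type*} (s : Finset ι) {f : ι → AA B Λ}
    (hf : ∀ i ∈ s, HDec Q G (f i)) : HDec Q G (∑ i ∈ s, f i) := by
  classical
  induction s using Finset.induction_on with
  | empty => simpa using HDec.zero
  | insert a s ha ih =>
    rw [Finset.sum_insert ha]
    exact HDec.add (hf a (Finset.mem_insert_self a s))
      (ih fun i hi => hf i (Finset.mem_insert_of_mem hi))

lemma HDec.mul {z z' : AA B Λ} (hz : HDec Q G z) (hz' : HDec Q G z') : HDec Q G (z * z') := by
  obtain ⟨w, hA, hh, rfl⟩ := hz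
  obtain ⟨w', hA', hh', rfl⟩ := hz'
  unfold Finsupp.sum
  rw [Finset.sum_mul]
  refine HDec.sum _ fun d _ => ?_
  rw [Finset.mul_sum]
  refine HDec.sum _ fun e _ => ?_
  exact HDec.of (Subalgebra.mul_mem _ (hA d) (hA' e)) ((hh d).mul (hh' e))

omit [Fintype E] [DecidableEq B] [IsDomain Λ] in
/-- decomposition commutes with renaming -/
lemma decompose_rename (hren : ∀ (g : B → B) (n : ℕ) (f : SS B Λ), f ∈ G n → rename g f ∈ G n)
    (g : B → B) (f : SS B Λ) (n : ℕ) :
    ((DirectSum.decompose G (rename g f)) n : SS B Λ) =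
      rename g ((DirectSum.decompose G f) n : SS B Λ) := by
  classical
  conv_lhs => rw [← DirectSum.sum_support_decompose G f]
  rw [map_sum, DirectSum.decompose_sum, DFinsupp.finsetSum_apply,
    AddSubmonoidClass.coe_finsetSum, Finset.sum_eq_single n]
  · exact DirectSum.decompose_of_mem_same G (hren g n _ (Submodule.coe_mem _))
  · intro i _ hi
    exact DirectSum.decompose_of_mem_ne G (hren g i _ (Submodule.coe_mem _)) hi
  · intro hn
    have : ((DirectSum.decompose G f) n : SS B Λ) = 0 := by simpa using hn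
    rw [this]
    simp

/-- component of degree `d` of a dressing, relative to the degrees of `e` -/
noncomputable def cmp (Q : QD I E B Λ) (G : ℕ → Submodule k (SS B Λ)) [GradedAlgebra G]
    (F : Finset (Option B) → SS B Λ) (d : ℤ) (V : Finset (Option B)) : SS B Λ :=
  if 0 ≤ d - dege Q (lamV V) then
    ((DirectSum.decompose G (F V)) (d - dege Q (lamV V)).toNat : SS B Λ) else 0

lemma cmp_mem (F : Finset (Option B) → SS B Λ) (d : ℤ) (V : Finset (Option B)) :
    cmp Q G F d V ∈ GZ G (d - dege Q (lamV V)) := by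
  unfold cmp GZ
  split_ifs with h
  · exact Submodule.coe_mem _
  · exact Submodule.zero_mem _

lemma single_sum' {ι : Type*} (s : Finset ι) (mu : B → ℤ) (f : ι → KK B Λ) :
    (AddMonoidAlgebra.single mu (∑ i ∈ s, f i) : AA B Λ) =
      ∑ i ∈ s, AddMonoidAlgebra.single mu (f i) := by
  classical
  induction s using Finset.induction_on with
  | empty => simp
  | insert a s ha ih =>
    rw [Finset.sum_insert ha, Finset.sum_insert ha, AddMonoidAlgebra.single_add, ih]

lemma decompose_congr (f : SS B Λ) {n m : ℕ} (h : n = m) :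
    ((DirectSum.decompose G f) n : SS B Λ) = ((DirectSum.decompose G f) m : SS B Λ) := by
  subst h; rfl

/-- `dege` is invariant -/
lemma dege_lact {σ : Equiv.Perm B} (hσ : σ ∈ Q.W) (lam : B → ℤ) :
    dege Q (lact σ lam) = dege Q lam := by
  unfold dege
  congr 1
  · refine (Finset.sum_nbij' (i := fun p => (p.1, σ p.2.1, p.2.2.map σ))
      (j := fun p => (p.1, σ⁻¹ p.2.1, p.2.2.map (σ⁻¹ : Equiv.Perm B))) ?_ ?_ ?_ ?_ ?_).symm
    · intro p hp
      simp only [QD.Wt, Finset.mem_filter, Finset.mem_univ, true_and] at hp ⊢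
      refine ⟨by rw [hσ p.2.1]; exact hp.1, ?_⟩
      rw [← hp.2]
      cases p.2.2 with
      | none => rfl
      | some b => simp only [QD.vo, Option.map_some, hσ b]
    · intro p hp
      simp only [QD.Wt, Finset.mem_filter, Finset.mem_univ, true_and] at hp ⊢
      have hσ' := Q.W.inv_mem hσ
      refine ⟨by rw [hσ' p.2.1]; exact hp.1, ?_⟩
      rw [← hp.2]
      cases p.2.2 with
      | none => rfl
      | some b => simp only [QD.vo, Option.map_some, hσ' b]
    · rintro ⟨a, b, o⟩ _
      cases o <;> simp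
    · rintro ⟨a, b, o⟩ _
      cases o <;> simp
    · rintro ⟨a, b, o⟩ _
      cases o <;> simp [lact, ext]
  · refine (Finset.sum_nbij' (i := fun p => (σ p.1, σ p.2))
      (j := fun p => (σ⁻¹ p.1, σ⁻¹ p.2)) ?_ ?_ ?_ ?_ ?_).symm
    · intro p hp
      simp only [QD.Prs, Finset.mem_filter, Finset.mem_univ, true_and] at hp ⊢
      rw [hσ p.1, hσ p.2]; exact hp
    · intro p hp
      simp only [QD.Prs, Finset.mem_filter, Finset.mem_univ, true_and] at hp ⊢
      have hσ' := Q.W.inv_mem hσ
      rw [hσ' p.1, hσ' p.2]; exact hp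
    · rintro ⟨a, b⟩ _
      simp
    · rintro ⟨a, b⟩ _
      simp
    · rintro ⟨a, b⟩ _
      simp [lact]

lemma cmp_eqv (hG : Compat Q G) {F : Finset (Option B) → SS B Λ} (hF : F ∈ Q.Eqv) (d : ℤ) :
    cmp Q G F d ∈ Q.Eqv := by
  intro σ hσ V
  unfold cmp
  rw [lamV_vact, dege_lact hσ]
  split_ifs with h
  · rw [hF σ hσ V, decompose_rename hG.ren]
  · simp

lemma HDec.M (hG : Compat Q G) {F : Finset (Option B) → SS B Λ} (hF : F ∈ Q.Eqv) :
    HDec Q G (Q.M F) := by
  classical
  let sV : Finset (Option B) → Finset ℤ := fun V =>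
    (DirectSum.decompose G (F V)).support.image fun m : ℕ => (m : ℤ) + dege Q (lamV V)
  let s : Finset ℤ := Finset.univ.biUnion sV
  have hsum : ∀ V, ∑ d ∈ s, cmp Q G F d V = F V := by
    intro V
    have hsub : sV V ⊆ s := Finset.subset_biUnion_of_mem sV (Finset.mem_univ V)
    rw [← Finset.sum_subset hsub]
    · rw [Finset.sum_image (fun a _ b _ h => by simpa using h)]
      conv_rhs => rw [← DirectSum.sum_support_decompose G (F V)]
      refine Finset.sum_congr rfl fun m _ => ?_
      unfold cmp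
      rw [if_pos (by simp)]
      exact decompose_congr _ (by simp)
    · intro d _ hd
      unfold cmp
      split_ifs with h
      · by_contra hne
        apply hd
        refine Finset.mem_image.mpr ⟨(d - dege Q (lamV V)).toNat, ?_, ?_⟩
        · rw [DFinsupp.mem_support_iff]
          intro h0
          apply hne
          rw [h0]; rfl
        · rw [Int.toNat_of_nonneg h]; ring
      · rfl
  have hM : Q.M F = ∑ d ∈ s, Q.M (cmp Q G F d) := by
    unfold QD.M
    rw [Finset.sum_comm]
    refine Finset.sum_congr rfl fun V _ => ?_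
    rw [← single_sum']
    congr 1
    rw [← Finset.sum_mul, ← map_sum (algebraMap (SS B Λ) (KK B Λ)), hsum V]
  rw [hM]
  refine HDec.sum _ fun d _ => HDec.of (d := d) (Algebra.subset_adjoin ⟨_, cmp_eqv hG hF d, rfl⟩) ?_
  unfold QD.M
  refine HomA.sum _ fun V _ => HomA.single _ ?_
  have := (IsHom.toK (cmp_mem (Q := Q) (G := G) F d V)).mul (e_hom hG (lamV V))
  rwa [sub_add_cancel] at this

lemma cst_homA {d : ℤ} {f : SS B Λ} (hf : f ∈ GZ G d) : HomA G d (QD.cst f) :=
  HomA.single _ (IsHom.toK hf)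

lemma HDec.algMap (hG : Compat Q G) (r : Λ) : HDec Q G (algebraMap Λ (AA B Λ) r) := by
  classical
  rw [algebraMap_AA]
  have h1 : (AddMonoidAlgebra.single 0 (toK (C r)) : AA B Λ) =
      ∑ m ∈ (DirectSum.decompose G (C r : SS B Λ)).support,
        AddMonoidAlgebra.single 0 (toK ((DirectSum.decompose G (C r : SS B Λ)) m : SS B Λ)) := by
    rw [← single_sum']
    congr 1
    rw [← map_sum (algebraMap (SS B Λ) (KK B Λ)), DirectSum.sum_support_decompose]
  rw [h1]
  refine HDec.sum _ fun m _ => HDec.of (d := (m : ℤ)) ?_ ?_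
  · have h2 : ((DirectSum.decompose G (C r : SS B Λ)) m : SS B Λ) ∈ Q.R := by
      intro σ _
      rw [← decompose_rename hG.ren, rename_C]
    -- `cst` of an invariant polynomial is a generator
    have h4 : (AddMonoidAlgebra.single 0
        (toK ((DirectSum.decompose G (C r : SS B Λ)) m : SS B Λ)) : AA B Λ) =
        Q.M (fun V => if V = ∅ then ((DirectSum.decompose G (C r : SS B Λ)) m : SS B Λ) else 0) := by
      unfold QD.M
      rw [Finset.sum_eq_single ∅]
      · have : lamV (∅ : Finset (Option B)) = 0 := by funext b; simp [lamV]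
        rw [this, e_zero]
        simp
      · intro V _ hV
        simp [hV, toK]
      · intro h; exact absurd (Finset.mem_univ _) h
    rw [h4]
    refine Algebra.subset_adjoin ⟨_, ?_, rfl⟩
    intro σ hσ V
    have hV : vact σ V = ∅ ↔ V = ∅ := by
      unfold vact
      exact Finset.map_eq_empty
    by_cases h : V = ∅
    · subst h
      have h5 : vact σ (∅ : Finset (Option B)) = ∅ := hV.mpr rfl
      simp only [h5, if_true]
      exact (h2 σ hσ).symm
    · simp [h, hV]
  · exact cst_homA (by rw [GZ_natCast]; exact Submodule.coe_mem _)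

/-- every element of `A` is a finite sum of homogeneous elements of `A` -/
theorem A_dec (hG : Compat Q G) {z : AA B Λ} (hz : z ∈ Q.A) : HDec Q G z := by
  unfold QD.A at hz
  induction hz using Algebra.adjoin_induction with
  | mem x hx =>
    obtain ⟨F, hF, rfl⟩ := hx
    exact HDec.M hG hF
  | algebraMap r => exact HDec.algMap hG r
  | add x y _ _ hx hy => exact hx.add hy
  | mul x y _ _ hx hy => exact hx.mul hy

/-- homogeneous component of an element of `A` -/
theorem A_comp (hG : Compat Q G) {z : AA B Λ} (hz : z ∈ Q.A) (d : ℤ) :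
    ∃ z' ∈ Q.A, HomA G d z' ∧ (∀ mu, z.coeff mu = 0 → z'.coeff mu = 0) ∧
      (∀ mu, IsHom G d (z.coeff mu) → z'.coeff mu = z.coeff mu) := by
  classical
  obtain ⟨w, hA, hh, hw⟩ := A_dec hG hz
  have key : ∀ mu, IsHom G d (z.coeff mu) → (w d).coeff mu = z.coeff mu := by
    intro mu hmu
    let s := insert d w.support
    let f : ℤ → KK B Λ := fun e => (w e).coeff mu - if e = d then z.coeff mu else 0
    have hf : ∀ e ∈ s, IsHom G e (f e) := by
      intro e _
      refine (hh e mu).sub ?_
      split_ifs with h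
      · subst h; exact hmu
      · exact IsHom.zero _
    have h0 : ∑ e ∈ s, f e = 0 := by
      have h1 : ∑ e ∈ s, (w e).coeff mu = z.coeff mu := by
        rw [hw]
        unfold Finsupp.sum
        rw [AddMonoidAlgebra.coeff_sum, Finsupp.finsetSum_apply]
        refine (Finset.sum_subset (Finset.subset_insert d w.support) ?_).symm
        intro e _ he
        rw [Finsupp.notMem_support_iff] at he
        rw [he]; simp
      simp only [f]
      rw [Finset.sum_sub_distrib, h1, Finset.sum_ite_eq' s d, if_pos (Finset.mem_insert_self _ _),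
        sub_self]
    have h2 := IsHom.indep hf h0 d (Finset.mem_insert_self _ _)
    simp only [f, if_true] at h2
    exact sub_eq_zero.mp h2
  refine ⟨w d, hA d, hh d, fun mu h => ?_, key⟩
  rw [key mu (by rw [h]; exact IsHom.zero _), h]

end H846

end Vale.Agent.P291
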