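import Vale.Agent.P291.QBlk

/-!
# P291 / H846: homogeneous rational functions

`G : ℕ → Submodule k (SS B Λ)` is a grading of the polynomial ring.  A rational function is
homogeneous of degree `d : ℤ` if it is a quotient of homogeneous polynomials.
-/

open MvPolynomial

namespace Vale.Agent.P291

namespace H846

variable {k B Λ : Type*} [Field k] [CommRing Λ] [IsDomain Λ] [Algebra k Λ]

section hom

variable (G : ℕ → Submodule k (SS B Λ)) [GradedAlgebra G]

/-- the grading extended by zero to negative degrees -/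
noncomputable def GZ (d : ℤ) : Submodule k (SS B Λ) := if 0 ≤ d then G d.toNat else ⊥

omit [IsDomain Λ] [GradedAlgebra G] in
lemma GZ_natCast (n : ℕ) : GZ G (n : ℤ) = G n := by simp [GZ]

omit [IsDomain Λ] [GradedAlgebra G] in
lemma GZ_neg {d : ℤ} (hd : d < 0) : GZ G d = ⊥ := by
  simp [GZ, not_le.mpr hd]

lemma GZ_mul {d : ℤ} {n : ℕ} {p q : SS B Λ} (hp : p ∈ GZ G d) (hq : q ∈ G n) :
    p * q ∈ GZ G (d + n) := by
  by_cases hd : 0 ≤ d
  · obtain ⟨m, rfl⟩ := Int.eq_ofNat_of_zero_le hd
    rw [GZ_natCast] at hp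
    rw [← Nat.cast_add, GZ_natCast]
    exact SetLike.mul_mem_graded hp hq
  · rw [GZ_neg G (not_le.mp hd), Submodule.mem_bot] at hp
    rw [hp, zero_mul]
    exact Submodule.zero_mem _

/-- homogeneous of degree `d` -/
def IsHom (d : ℤ) (f : KK B Λ) : Prop :=
  ∃ n : ℕ, ∃ q ∈ G n, q ≠ 0 ∧ ∃ p ∈ GZ G (d + n), f * toK q = toK p

variable {G}

omit [IsDomain Λ] [GradedAlgebra G] in
lemma toK_inj {f g : SS B Λ} (h : toK f = toK g) : f = g :=
  IsFractionRing.injective (SS B Λ) (KK B Λ) h

omit [IsDomain Λ] [GradedAlgebra G] in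
lemma toK_mul (f g : SS B Λ) : toK (f * g) = toK f * toK g := map_mul _ _ _

omit [IsDomain Λ] [GradedAlgebra G] in
lemma toK_add (f g : SS B Λ) : toK (f + g) = toK f + toK g := map_add _ _ _

lemma IsHom.toK {d : ℤ} {p : SS B Λ} (hp : p ∈ GZ G d) : IsHom G d (toK p) := by
  refine ⟨0, 1, SetLike.GradedOne.one_mem, one_ne_zero, p, by simpa using hp, ?_⟩
  simp [P291.toK]

lemma IsHom.zero (d : ℤ) : IsHom G d (0 : KK B Λ) := by
  have := IsHom.toK (G := G) (d := d) (Submodule.zero_mem _)
  simpa [P291.toK] using this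

lemma IsHom.mul {d e : ℤ} {f g : KK B Λ} (hf : IsHom G d f) (hg : IsHom G e g) :
    IsHom G (d + e) (f * g) := by
  obtain ⟨n, q, hq, hq0, p, hp, h⟩ := hf
  obtain ⟨n', q', hq', hq0', p', hp', h'⟩ := hg
  refine ⟨n + n', q * q', SetLike.mul_mem_graded hq hq', mul_ne_zero hq0 hq0', p * p', ?_, ?_⟩
  · by_cases hd : 0 ≤ e + n'
    · obtain ⟨m, hm⟩ := Int.eq_ofNat_of_zero_le hd
      have : d + e + ((n + n' : ℕ) : ℤ) = d + n + (m : ℕ) := by push_cast; linarith
      rw [this]
      refine GZ_mul G hp ?_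
      rwa [← GZ_natCast G, ← hm]
    · rw [GZ_neg G (not_le.mp hd), Submodule.mem_bot] at hp'
      rw [hp', mul_zero]
      exact Submodule.zero_mem _
  · rw [toK_mul, toK_mul, ← h, ← h']; ring

lemma IsHom.add {d : ℤ} {f g : KK B Λ} (hf : IsHom G d f) (hg : IsHom G d g) :
    IsHom G d (f + g) := by
  obtain ⟨n, q, hq, hq0, p, hp, h⟩ := hf
  obtain ⟨n', q', hq', hq0', p', hp', h'⟩ := hg
  refine ⟨n + n', q * q', SetLike.mul_mem_graded hq hq', mul_ne_zero hq0 hq0',
    p * q' + p' * q, ?_, ?_⟩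
  · refine Submodule.add_mem _ ?_ ?_
    · have := GZ_mul G hp hq'
      rwa [Nat.cast_add, ← add_assoc]
    · have := GZ_mul G hp' hq
      rwa [Nat.cast_add, add_comm (n : ℤ), ← add_assoc]
  · rw [toK_mul, toK_add, toK_mul, toK_mul, ← h, ← h']; ring

lemma IsHom.sum {d : ℤ} {ι : Type*} (s : Finset ι) {f : ι → KK B Λ}
    (hf : ∀ i ∈ s, IsHom G d (f i)) : IsHom G d (∑ i ∈ s, f i) := by
  classical
  induction s using Finset.induction_on with
  | empty => simpa using IsHom.zero d
  | insert a s ha ih =>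
    rw [Finset.sum_insert ha]
    exact IsHom.add (hf a (Finset.mem_insert_self a s))
      (ih fun i hi => hf i (Finset.mem_insert_of_mem hi))

lemma IsHom.inv {d : ℤ} {f : KK B Λ} (hf : IsHom G d f) : IsHom G (-d) f⁻¹ := by
  by_cases hf0 : f = 0
  · subst hf0; rw [inv_zero]; exact IsHom.zero _
  obtain ⟨n, q, hq, hq0, p, hp, h⟩ := hf
  have hp0 : p ≠ 0 := by
    rintro rfl
    have h1 : f * P291.toK q = 0 := by rw [h]; exact map_zero _
    rcases mul_eq_zero.mp h1 with h2 | h2
    · exact hf0 h2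
    · exact hq0 (toK_inj (by rw [h2]; exact (map_zero _).symm))
  have hd : 0 ≤ d + n := by
    by_contra hd
    rw [GZ_neg G (not_le.mp hd), Submodule.mem_bot] at hp
    exact hp0 hp
  obtain ⟨m, hm⟩ := Int.eq_ofNat_of_zero_le hd
  refine ⟨m, p, ?_, hp0, q, ?_, ?_⟩
  · rwa [← GZ_natCast G, ← hm]
  · have : -d + (m : ℕ) = ((n : ℕ) : ℤ) := by linarith
    rwa [this, GZ_natCast]
  · rw [← h, ← mul_assoc, inv_mul_cancel₀ hf0, one_mul]

lemma IsHom.div {d e : ℤ} {f g : KK B Λ} (hf : IsHom G d f) (hg : IsHom G e g) :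
    IsHom G (d - e) (f / g) := by
  rw [div_eq_mul_inv, sub_eq_add_neg]
  exact hf.mul hg.inv

omit [IsDomain Λ] [GradedAlgebra G] in
lemma IsHom.neg {d : ℤ} {f : KK B Λ} (hf : IsHom G d f) : IsHom G d (-f) := by
  obtain ⟨n, q, hq, hq0, p, hp, h⟩ := hf
  refine ⟨n, q, hq, hq0, -p, Submodule.neg_mem _ hp, ?_⟩
  rw [neg_mul, h]
  exact (map_neg _ _).symm

lemma IsHom.sub {d : ℤ} {f g : KK B Λ} (hf : IsHom G d f) (hg : IsHom G d g) :
    IsHom G d (f - g) := by
  rw [sub_eq_add_neg]
  exact hf.add hg.neg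

lemma IsHom.prod {ι : Type*} (s : Finset ι) {d : ι → ℤ} {f : ι → KK B Λ}
    (hf : ∀ i ∈ s, IsHom G (d i) (f i)) : IsHom G (∑ i ∈ s, d i) (∏ i ∈ s, f i) := by
  classical
  induction s using Finset.induction_on with
  | empty =>
    rw [Finset.prod_empty, Finset.sum_empty]
    refine ⟨0, 1, SetLike.GradedOne.one_mem, one_ne_zero, 1, ?_, by simp [P291.toK]⟩
    have : (0 : ℤ) + ((0 : ℕ) : ℤ) = ((0 : ℕ) : ℤ) := by simp
    rw [this, GZ_natCast]
    exact SetLike.GradedOne.one_mem
  | insert a s ha ih =>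
    rw [Finset.prod_insert ha, Finset.sum_insert ha]
    exact IsHom.mul (hf a (Finset.mem_insert_self a s))
      (ih fun i hi => hf i (Finset.mem_insert_of_mem hi))

/-- homogeneous components of polynomials, indexed by `ℤ` -/
lemma GZ_indep {s : Finset ℤ} {P : ℤ → SS B Λ} (hP : ∀ d ∈ s, P d ∈ GZ G d)
    (h0 : ∑ d ∈ s, P d = 0) : ∀ d ∈ s, P d = 0 := by
  classical
  intro d hd
  by_cases hd0 : 0 ≤ d
  swap
  · have := hP d hd
    rwa [GZ_neg G (not_le.mp hd0), Submodule.mem_bot] at this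
  obtain ⟨m, rfl⟩ := Int.eq_ofNat_of_zero_le hd0
  have h1 := congrArg (fun f => ((DirectSum.decompose G f) m : SS B Λ)) h0
  simp only [DirectSum.decompose_sum, DirectSum.decompose_zero] at h1
  rw [DFinsupp.finsetSum_apply] at h1
  rw [AddSubmonoidClass.coe_finsetSum, Finset.sum_eq_single (m : ℤ)] at h1
  · rw [DirectSum.decompose_of_mem_same] at h1
    · simpa using h1
    · rw [← GZ_natCast G]; exact hP _ hd
  · intro e he hne
    by_cases he0 : 0 ≤ e
    · obtain ⟨m', rfl⟩ := Int.eq_ofNat_of_zero_le he0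
      refine DirectSum.decompose_of_mem_ne G (i := m') ?_ ?_
      · rw [← GZ_natCast G]; exact hP _ he
      · intro h; exact hne (by rw [h])
    · have := hP e he
      rw [GZ_neg G (not_le.mp he0), Submodule.mem_bot] at this
      rw [this]
      simp
  · intro h; exact absurd hd h

/-- common homogeneous denominator -/
lemma IsHom.common (s : Finset ℤ) {f : ℤ → KK B Λ} (hf : ∀ d ∈ s, IsHom G d (f d)) :
    ∃ n : ℕ, ∃ q ∈ G n, q ≠ 0 ∧ ∃ P : ℤ → SS B Λ, (∀ d ∈ s, P d ∈ GZ G (d + n)) ∧
      ∀ d ∈ s, f d * P291.toK q = P291.toK (P d) := by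
  classical
  induction s using Finset.induction_on with
  | empty => exact ⟨0, 1, SetLike.GradedOne.one_mem, one_ne_zero, fun _ => 0, by simp, by simp⟩
  | insert a s ha ih =>
    obtain ⟨n, q, hq, hq0, P, hP, hP'⟩ := ih fun i hi => hf i (Finset.mem_insert_of_mem hi)
    obtain ⟨m, r, hr, hr0, p, hp, h⟩ := hf a (Finset.mem_insert_self a s)
    refine ⟨m + n, r * q, SetLike.mul_mem_graded hr hq, mul_ne_zero hr0 hq0,
      fun d => if d = a then p * q else P d * r, ?_, ?_⟩
    · intro d hd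
      by_cases hda : d = a
      · subst hda
        simp only [if_true]
        have := GZ_mul G hp hq
        rwa [Nat.cast_add, ← add_assoc]
      · simp only [if_neg hda]
        have := GZ_mul G (hP d (Finset.mem_of_mem_insert_of_ne hd hda)) hr
        rwa [Nat.cast_add, add_comm (m : ℤ), ← add_assoc]
    · intro d hd
      by_cases hda : d = a
      · subst hda
        simp only [if_true]
        rw [toK_mul, toK_mul, ← h]; ring
      · simp only [if_neg hda]
        rw [toK_mul, toK_mul, ← hP' d (Finset.mem_of_mem_insert_of_ne hd hda)]; ring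

/-- homogeneous rational functions of different degrees are independent -/
lemma IsHom.indep {s : Finset ℤ} {f : ℤ → KK B Λ} (hf : ∀ d ∈ s, IsHom G d (f d))
    (h0 : ∑ d ∈ s, f d = 0) : ∀ d ∈ s, f d = 0 := by
  classical
  obtain ⟨n, q, hq, hq0, P, hP, hP'⟩ := IsHom.common s hf
  have h1 : ∑ d ∈ s.map (addRightEmbedding (n : ℤ)), P (d - n) = 0 := by
    rw [Finset.sum_map]
    simp only [addRightEmbedding_apply, add_sub_cancel_right]
    apply IsFractionRing.injective (SS B Λ) (KK B Λ)
    rw [map_sum, map_zero]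
    have : ∑ d ∈ s, (algebraMap (SS B Λ) (KK B Λ)) (P d) = (∑ d ∈ s, f d) * P291.toK q := by
      rw [Finset.sum_mul]
      exact Finset.sum_congr rfl fun d hd => (hP' d hd).symm
    rw [this, h0, zero_mul]
  have h2 := GZ_indep (G := G) (s := s.map (addRightEmbedding (n : ℤ))) (P := fun d => P (d - n))
    (by
      intro d hd
      obtain ⟨e, he, rfl⟩ := Finset.mem_map.mp hd
      simpa using hP e he) h1
  intro d hd
  have h3 := h2 (d + n) (Finset.mem_map_of_mem (addRightEmbedding (n : ℤ)) hd)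
  simp only [add_sub_cancel_right] at h3
  have h4 := hP' d hd
  rw [h3] at h4
  have h5 : f d * P291.toK q = 0 := by rw [h4]; exact map_zero _
  rcases mul_eq_zero.mp h5 with h6 | h6
  · exact h6
  · exact absurd (toK_inj (by rw [h6]; exact (map_zero _).symm)) hq0

/-- a polynomial that is homogeneous as a rational function is a homogeneous polynomial -/
lemma IsHom.mem {d : ℤ} {p : SS B Λ} (hp : IsHom G d (P291.toK p)) : p ∈ GZ G d := by
  classical
  obtain ⟨n, q, hq, hq0, r, hr, h⟩ := hp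
  have h1 : p * q = r := toK_inj (by rw [toK_mul, h])
  -- every component of `p` of the wrong degree vanishes
  have h2 : ∀ i : ℕ, (i : ℤ) ≠ d → ((DirectSum.decompose G p) i : SS B Λ) = 0 := by
    intro i hi
    by_cases hd : 0 ≤ d + n
    · obtain ⟨m, hm⟩ := Int.eq_ofNat_of_zero_le hd
      have hr' : r ∈ G m := by rwa [← GZ_natCast G, ← hm]
      have h3 : ((DirectSum.decompose G (p * q)) (i + n) : SS B Λ) =
          (DirectSum.decompose G p) i * q := DirectSum.coe_decompose_mul_add_of_right_mem G hq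
      rw [h1, DirectSum.decompose_of_mem_ne G hr' (by intro h; apply hi; omega)] at h3
      rcases mul_eq_zero.mp h3.symm with h4 | h4
      · exact h4
      · exact absurd h4 hq0
    · rw [GZ_neg G (not_le.mp hd), Submodule.mem_bot] at hr
      rw [hr] at h1
      rcases mul_eq_zero.mp h1 with h4 | h4
      · rw [h4]; simp
      · exact absurd h4 hq0
  by_cases hd : 0 ≤ d
  · obtain ⟨m, rfl⟩ := Int.eq_ofNat_of_zero_le hd
    rw [GZ_natCast]
    have h3 : p = ((DirectSum.decompose G p) m : SS B Λ) := by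
      conv_lhs => rw [← DirectSum.sum_support_decompose G p]
      rw [Finset.sum_eq_single m]
      · intro i _ hi
        exact h2 i (by exact_mod_cast hi)
      · intro hm
        simpa using hm
    rw [h3]
    exact Submodule.coe_mem _
  · have h3 : p = 0 := by
      rw [← DirectSum.sum_support_decompose G p]
      refine Finset.sum_eq_zero fun i _ => h2 i ?_
      intro h
      exact hd (by rw [← h]; positivity)
    rw [h3]
    exact Submodule.zero_mem _

end hom

end H846

end Vale.Agent.P291
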