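import Vale.Agent.P291.H846.Basis

/-!
# P291 / H846: the homogeneous basis of the space of constant coefficients
-/

set_option linter.unusedSectionVars false

open MvPolynomial

namespace Vale.Agent.P291

namespace H846

variable {I E B Λ k : Type*} [Fintype E] [DecidableEq I] [Fintype B] [DecidableEq B] [CommRing Λ]
  [IsDomain Λ] [Field k] [CharZero k] [Algebra k Λ]
variable {Q : QD I E B Λ} {S : Scal k Λ}

/-- degree of a monomial -/
def mdeg (m : B →₀ ℕ) : ℕ := m.sum fun _ n => n

lemma mdeg_mapDomain (σ : Equiv.Perm B) (m : B →₀ ℕ) : mdeg (m.mapDomain σ) = mdeg m := by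
  unfold mdeg
  exact Finsupp.sum_mapDomain_index (fun _ => rfl) (fun _ _ _ => rfl)

lemma monomial_mem_GG (S : Scal k Λ) (m : B →₀ ℕ) :
    (monomial m (1 : Λ) : SS B Λ) ∈ GG S B (mdeg m) := by
  rw [monomial_eq, map_one, one_mul]
  exact prod_pow_mem m.support (fun b => (X b : SS B Λ)) m fun b _ => X_mem_GG S B b

lemma GS_mem_GG (S : Scal k Λ) (lam : B → ℤ) (m : B →₀ ℕ) :
    GS' Λ Q lam m ∈ GG S B (mdeg m) := by
  unfold GS'
  refine Submodule.sum_mem _ fun σ _ => ?_
  rw [← mdeg_mapDomain σ m]
  exact monomial_mem_GG S _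

lemma GS_hom (S : Scal k Λ) (lam : B → ℤ) (m : B →₀ ℕ) :
    S.Hom (mdeg m : ℤ) (toK (GS' Λ Q lam m)) :=
  hom_of_isHom (IsHom.toK (by rw [GZ_natCast]; exact GS_mem_GG S lam m))

lemma low_of (p : Q.Idx0) : Low p.1.1 p.1.2 := by
  intro b hb
  have h1 := p.2.1.1 b
  have h2 := p.2.2 b
  by_contra h
  exact hb (h2 (by omega))

/-- chosen element of `A` for every index -/
lemma exists_EE [Algebra ℚ Λ] (hS : Q.Lin S) (hQ : Q.NonzeroLoops) (x : Q.Idx) :
    ∃ y, Lead Q (Quotient.out x).1.1 (GS' Λ Q (Quotient.out x).1.1 (Quotient.out x).1.2) y ∧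
      S.Hom (Q.degI x) (y.coeff 0) := by
  obtain ⟨y, hy, hy'⟩ := exists_lead_hom hQ (compat hS) (Quotient.out x).2.1
    (GS_inv (Q := Q) (Quotient.out x).1.1 (Quotient.out x).1.2)
    (m := (mdeg (Quotient.out x).1.2 : ℤ))
    (by rw [GZ_natCast]; exact GS_mem_GG S _ _)
  refine ⟨y, hy, ?_⟩
  have := hom_of_isHom (hy' 0)
  have e : Q.degI x = (mdeg (Quotient.out x).1.2 : ℤ) + dege Q (Quotient.out x).1.1 := by
    unfold QD.degI QD.deg0
    rw [add_comm]
    rfl
  rw [e]
  exact this

lemma lead_mk {EE : Q.Idx → AA B Λ}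
    (hE : ∀ x : Q.Idx, Lead Q (Quotient.out x).1.1
      (GS' Λ Q (Quotient.out x).1.1 (Quotient.out x).1.2) (EE x)) (p : Q.Idx0) :
    Lead Q p.1.1 (GS' Λ Q p.1.1 p.1.2) (EE (Quotient.mk _ p)) := by
  have h := hE (Quotient.mk _ p)
  obtain ⟨σ, hσ, h1, h2⟩ := Quotient.mk_out (s := Q.idxSetoid) p
  rw [h1, h2, ← rename_GS hσ]
  exact h.lact hσ

/-- spanning -/
theorem span_EE [Algebra ℚ Λ] (hQ : Q.NonzeroLoops) {EE : Q.Idx → AA B Λ}
    (hE : ∀ x : Q.Idx, Lead Q (Quotient.out x).1.1
      (GS' Λ Q (Quotient.out x).1.1 (Quotient.out x).1.2) (EE x)) :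
    ∀ (N n : ℕ) (z : AA B Λ), CC Q z → (∀ mu, z.coeff mu ≠ 0 → nrm mu < N) →
      (z.coeff.support.filter fun mu => nrm mu = (N : ℤ) - 1).card = n →
      z.coeff 0 ∈ Submodule.span Λ (Set.range fun x => (EE x).coeff 0) := by
  classical
  intro N
  induction N with
  | zero =>
    intro n z hz hN _
    have : z.coeff 0 = 0 := by
      by_contra h
      have := hN 0 h
      have h2 := nrm_nonneg (0 : B → ℤ)
      push_cast at this
      omega
    rw [this]
    exact Submodule.zero_mem _
  | succ N ihN =>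
    intro n
    induction n using Nat.strong_induction_on with
    | _ n ih =>
      intro z hz hN hn
      by_cases hex : ∃ lam, z.coeff lam ≠ 0 ∧ nrm lam = N
      swap
      · push Not at hex
        refine ihN _ z hz (fun mu hmu => ?_) rfl
        have h1 := hN mu hmu
        have h2 := hex mu hmu
        push_cast at h1
        omega
      obtain ⟨lam, hlam, hnl⟩ := hex
      have hmax : ∀ mu, z.coeff mu ≠ 0 → nrm mu ≤ nrm lam := by
        intro mu hmu
        have := hN mu hmu
        push_cast at this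
        omega
      have hsm := hz.2 lam hlam
      obtain ⟨h, hh, hinv⟩ := LC Q hQ hz.1 hlam hmax
      obtain ⟨cl, hcl⟩ := exists_cl Q hsm.1 hsm.2
      have hf : Q.InvL lam (rename cl h) := inv_rename hsm.1 hcl hinv
      obtain ⟨c, hc⟩ := eq_sum_GS hf
      have hlow : ∀ m ∈ (rename cl h).support, Low lam m := fun m hm =>
        low_rename hsm.1 hcl h hm
      -- index data
      have hidx : ∀ m : B →₀ ℕ, ∃ x : Q.Idx, Low lam m →
          Lead Q lam (GS' Λ Q lam m) (EE x) := by
        intro m
        by_cases hm : Low lam m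
        · have hp : Q.Om lam ∧ ∀ b, lam b = 1 → m b = 0 := by
            refine ⟨hsm, fun b hb => ?_⟩
            by_contra h
            have := hm b h
            omega
          exact ⟨Quotient.mk _ ⟨(lam, m), hp⟩, fun _ => lead_mk hE ⟨(lam, m), hp⟩⟩
        · obtain ⟨x0⟩ : Nonempty Q.Idx := ⟨Quotient.mk _ ⟨(0, 0), Small.zero, fun b _ => rfl⟩⟩
          exact ⟨x0, fun h => absurd h hm⟩
      choose x hx using hidx
      set y1 : AA B Λ := ∑ m ∈ (rename cl h).support, c m • EE (x m) with hy1
      have hL1 : Lead Q lam (rename cl h) y1 := by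
        have := Lead.sum (Q := Q) (lam := lam) (rename cl h).support
          (h := fun m => c m • GS' Λ Q lam m) (y := fun m => c m • EE (x m))
          (fun m hm => (hx m (hlow m hm)).smul (c m))
        rwa [← hc] at this
      have hψ : rename cl (rename cl h) = rename cl h := by
        conv_lhs => rw [hc]
        conv_rhs => rw [hc]
        rw [map_sum]
        refine Finset.sum_congr rfl fun m hm => ?_
        rw [map_smul, rename_cl_GS (hlow m hm) hcl]
      obtain ⟨y2, hL2, hy20⟩ := exists_lead0 hQ hsm hcl (h := h - rename cl h)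
        (fun σ hσ hl => by rw [map_sub, hinv σ hσ hl, hf σ hσ hl])
        (by rw [map_sub, hψ, sub_self])
      have hz' : CC Q (z - y1 - y2) := (hz.sub hL1.cc).sub hL2.cc
      have hcoe : ∀ mu, (z - y1 - y2).coeff mu = z.coeff mu - y1.coeff mu - y2.coeff mu :=
        fun mu => by
          rw [AddMonoidAlgebra.coeff_sub, Finsupp.sub_apply, AddMonoidAlgebra.coeff_sub,
            Finsupp.sub_apply]
      have hl0 : (z - y1 - y2).coeff lam = 0 := by
        rw [hcoe, hL1.lead, hL2.lead, hh]
        have : (toK (h - rename cl h) : KK B Λ) = toK h - toK (rename cl h) := map_sub _ _ _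
        rw [this]; ring
      have hout : ∀ mu, (z - y1 - y2).coeff mu ≠ 0 → nrm mu = N →
          y1.coeff mu = 0 ∧ y2.coeff mu = 0 := by
        intro mu hmu hmn
        constructor
        · by_contra hy
          obtain ⟨σ, hσ, rfl⟩ := hL1.orb mu hy (by rw [hmn, hnl])
          apply hmu
          rw [A_inv Q hz'.1 hσ, hl0, map_zero]
        · by_contra hy
          obtain ⟨σ, hσ, rfl⟩ := hL2.orb mu hy (by rw [hmn, hnl])
          apply hmu
          rw [A_inv Q hz'.1 hσ, hl0, map_zero]
      have hN' : ∀ mu, (z - y1 - y2).coeff mu ≠ 0 → nrm mu < ((N + 1 : ℕ) : ℤ) := by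
        intro mu hmu
        by_cases h1 : z.coeff mu = 0
        · by_cases h2 : y1.coeff mu = 0
          · have h3 : y2.coeff mu ≠ 0 := fun h => hmu (by rw [hcoe, h1, h2, h]; simp)
            have := hL2.nrm_le mu h3
            push_cast; omega
          · have := hL1.nrm_le mu h2
            push_cast; omega
        · exact hN mu h1
      have hsub : ((z - y1 - y2).coeff.support.filter fun mu => nrm mu = ((N + 1 : ℕ) : ℤ) - 1) ⊆
          (z.coeff.support.filter fun mu => nrm mu = ((N + 1 : ℕ) : ℤ) - 1).erase lam := by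
        intro mu hmu
        simp only [Finset.mem_filter, Finsupp.mem_support_iff] at hmu
        have hmn : nrm mu = N := by rw [hmu.2]; push_cast; ring
        obtain ⟨h1, h2⟩ := hout mu hmu.1 hmn
        rw [Finset.mem_erase, Finset.mem_filter, Finsupp.mem_support_iff]
        refine ⟨?_, ?_, hmu.2⟩
        · rintro rfl
          exact hmu.1 hl0
        · intro hz0
          apply hmu.1
          rw [hcoe, hz0, h1, h2]; simp
      have hlt : ((z - y1 - y2).coeff.support.filter
          fun mu => nrm mu = ((N + 1 : ℕ) : ℤ) - 1).card < n := by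
        rw [← hn]
        refine lt_of_le_of_lt (Finset.card_le_card hsub) (Finset.card_erase_lt_of_mem ?_)
        rw [Finset.mem_filter, Finsupp.mem_support_iff]
        exact ⟨hlam, by rw [hnl]; push_cast; ring⟩
      have h1 := ih _ hlt (z - y1 - y2) hz' hN' rfl
      have h2 : z.coeff 0 = (z - y1 - y2).coeff 0 + y1.coeff 0 := by
        rw [hcoe, hy20]; ring
      rw [h2]
      refine Submodule.add_mem _ h1 ?_
      rw [hy1, AddMonoidAlgebra.coeff_sum, Finsupp.finsetSum_apply]
      refine Submodule.sum_mem _ fun m _ => ?_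
      rw [AddMonoidAlgebra.coeff_smul, Finsupp.smul_apply]
      exact Submodule.smul_mem _ _ (Submodule.subset_span ⟨x m, rfl⟩)

/-- independence -/
theorem indep_EE [Algebra ℚ Λ] (hQ : Q.NonzeroLoops) {EE : Q.Idx → AA B Λ}
    (hE : ∀ x : Q.Idx, Lead Q (Quotient.out x).1.1
      (GS' Λ Q (Quotient.out x).1.1 (Quotient.out x).1.2) (EE x)) :
    LinearIndependent Λ (fun x => (EE x).coeff 0) := by
  classical
  rw [linearIndependent_iff']
  intro s c hsum x hx
  by_contra hcx
  -- an index of maximal norm with nonzero coefficient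
  obtain ⟨x0, hx0, hx0max⟩ := Finset.exists_max_image (s.filter fun x => c x ≠ 0)
    (fun x => nrm (Quotient.out x).1.1) ⟨x, Finset.mem_filter.mpr ⟨hx, hcx⟩⟩
  rw [Finset.mem_filter] at hx0
  set lam := (Quotient.out x0).1.1 with hlamdef
  set z : AA B Λ := ∑ y ∈ s.filter (fun x => c x ≠ 0), c y • EE y with hz
  have hzc : ∀ mu, z.coeff mu = ∑ y ∈ s.filter (fun x => c x ≠ 0), c y • (EE y).coeff mu := by
    intro mu
    rw [hz, AddMonoidAlgebra.coeff_sum, Finsupp.finsetSum_apply]
    exact Finset.sum_congr rfl fun y _ => by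
      rw [AddMonoidAlgebra.coeff_smul, Finsupp.smul_apply]
  have hzCC : CC Q z := CC.sum _ fun y _ => (hE y).cc.smul _
  have hz0 : z.coeff 0 = 0 := by
    rw [hzc, ← hsum]
    refine Finset.sum_subset (Finset.filter_subset _ _) ?_
    intro y hy hy'
    have : c y = 0 := by
      by_contra h
      exact hy' (Finset.mem_filter.mpr ⟨hy, h⟩)
    rw [this, zero_smul]
  have hmax : ∀ mu, z.coeff mu ≠ 0 → nrm mu ≤ nrm lam := by
    intro mu hmu
    rw [hzc] at hmu
    obtain ⟨y, hy, hy0⟩ := Finset.exists_ne_zero_of_sum_ne_zero hmu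
    have h1 : (EE y).coeff mu ≠ 0 := fun h => hy0 (by rw [h, smul_zero])
    exact ((hE y).nrm_le mu h1).trans (hx0max y hy)
  -- the coefficient at lam
  have hterm : ∀ y ∈ s.filter (fun x => c x ≠ 0), ∃ g : SS B Λ,
      (EE y).coeff lam = toK g * Q.e lam ∧ (g = 0 ∨ ∃ m, ∃ hm : Q.Om lam ∧ ∀ b, lam b = 1 → m b = 0,
        g = GS' Λ Q lam m ∧ y = Quotient.mk _ ⟨(lam, m), hm⟩) := by
    intro y hy
    by_cases h0 : (EE y).coeff lam = 0
    · refine ⟨0, ?_, Or.inl rfl⟩
      rw [h0]
      have : (toK (0 : SS B Λ) : KK B Λ) = 0 := map_zero _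
      rw [this, zero_mul]
    · have hn : nrm lam = nrm (Quotient.out y).1.1 :=
        le_antisymm ((hE y).nrm_le lam h0) (hx0max y hy)
      obtain ⟨σ, hσ, hσl⟩ := (hE y).orb lam h0 hn
      have hL := (hE y).lact hσ
      rw [← hσl, rename_GS hσ, ← hσl] at hL
      have hm : Q.Om lam ∧ ∀ b, lam b = 1 →
          ((Quotient.out y).1.2.mapDomain σ) b = 0 := by
        refine ⟨(Quotient.out x0).2.1, fun b hb => ?_⟩
        by_contra hne
        have := (low_of (Quotient.out y)).mapDomain σ b hne
        rw [← hσl] at this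
        omega
      refine ⟨_, hL.lead, Or.inr ⟨_, hm, rfl, ?_⟩⟩
      have h3 : y = Quotient.mk Q.idxSetoid (Quotient.out y) := (Quotient.out_eq y).symm
      conv_lhs => rw [h3]
      exact Quotient.sound ⟨σ, hσ, hσl, rfl⟩
  choose! g hg hg' using hterm
  set H : SS B Λ := ∑ y ∈ s.filter (fun x => c x ≠ 0), c y • g y with hH
  have hzlam : z.coeff lam = toK H * Q.e lam := by
    rw [hzc, hH]
    have : (toK (∑ y ∈ s.filter (fun x => c x ≠ 0), c y • g y) : KK B Λ) =
        ∑ y ∈ s.filter (fun x => c x ≠ 0), c y • toK (g y) := by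
      unfold toK
      rw [map_sum]
      refine Finset.sum_congr rfl fun y _ => ?_
      rw [MvPolynomial.smul_eq_C_mul, map_mul, Algebra.smul_def,
        IsScalarTower.algebraMap_apply Λ (SS B Λ) (KK B Λ)]
      rfl
    rw [this, Finset.sum_mul]
    refine Finset.sum_congr rfl fun y hy => ?_
    rw [hg y hy, smul_mul_assoc]
  have hOm : Small Q lam := (Quotient.out x0).2.1
  obtain ⟨cl, hcl⟩ := exists_cl Q hOm.1 hOm.2
  have hH0 : H = 0 := by
    by_cases hzl : z.coeff lam = 0
    · rw [hzlam] at hzl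
      rcases mul_eq_zero.mp hzl with h | h
      · exact toK_inj (h.trans (map_zero _).symm)
      · exact absurd h (e_ne lam)
    · have h1 := psi_eq_zero Q hQ hzCC.1 (fun mu h => (hzCC.2 mu h).1)
        (fun mu h => (hzCC.2 mu h).2) hz0 hzl hmax hzlam hcl
      have h2 : rename cl H = H := by
        rw [hH, map_sum]
        refine Finset.sum_congr rfl fun y hy => ?_
        rw [map_smul]
        congr 1
        rcases hg' y hy with h | ⟨m, hm, h, -⟩
        · rw [h, map_zero]
        · rw [h]
          refine rename_cl_GS ?_ hcl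
          intro b hb
          have h3 := hOm.1 b
          have h4 := hm.2 b
          by_contra h5
          exact hb (h4 (by omega))
      rw [← h2, h1]
  -- the coefficient of H at the monomial of x0
  have hcoef : coeff (Quotient.out x0).1.2 H ≠ 0 := by
    rw [hH, coeff_sum, Finset.sum_eq_single x0]
    · rw [coeff_smul, smul_eq_mul]
      refine mul_ne_zero hx0.2 ?_
      have hL := hE x0
      have h1 := hg x0 (Finset.mem_filter.mpr hx0)
      rw [hL.lead] at h1
      rw [← lead_unique h1]
      exact coeff_GS_self _ _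
    · intro y hy hne
      rw [coeff_smul, smul_eq_mul]
      by_contra h0
      apply hne
      rcases hg' y hy with h | ⟨m, hm, h, hy'⟩
      · exfalso; apply h0; rw [h]; simp
      · rw [h] at h0
        obtain ⟨σ, hσ, h1, h2⟩ := coeff_GS_ne (right_ne_zero_of_mul h0)
        rw [hy', ← Quotient.out_eq x0]
        refine Quotient.sound ⟨σ, hσ, ?_, ?_⟩
        · exact h1.symm
        · exact h2.symm
    · intro h
      exact absurd (Finset.mem_filter.mpr hx0) h
  rw [hH0] at hcoef
  simp at hcoef

end H846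

end Vale.Agent.P291
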