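import Vale.Agent.P291.H846.Grad
import Vale.Agent.P291.IIdBlk

/-!
# P291 / H846: elements of `A` of charge zero with entries at most one
-/

set_option linter.unusedSectionVars false

open MvPolynomial

namespace Vale.Agent.P291

namespace H846

variable {I E B Λ : Type*} [Fintype E] [DecidableEq I] [Fintype B] [DecidableEq B]
  [CommRing Λ] [IsDomain Λ]
variable (Q : QD I E B Λ)

/-- cocharacters of charge zero with entries at most one -/
def Small (lam : B → ℤ) : Prop := (∀ b, lam b ≤ 1) ∧ ∀ i, Q.chg i lam = 0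

/-- elements of `A` of charge zero with entries at most one -/
def CC (z : AA B Λ) : Prop := z ∈ Q.A ∧ ∀ mu, z.coeff mu ≠ 0 → Small Q mu

variable {Q}

lemma Small.zero : Small Q (0 : B → ℤ) := ⟨fun _ => by simp, fun i => QD.chg_zero Q i⟩

lemma Small.lact {lam : B → ℤ} (h : Small Q lam) {σ : Equiv.Perm B} (hσ : σ ∈ Q.W) :
    Small Q (P291.lact σ lam) :=
  ⟨fun b => h.1 _, fun i => by rw [QD.chg_lact Q i hσ]; exact h.2 i⟩

lemma CC.zero : CC Q (0 : AA B Λ) := ⟨Subalgebra.zero_mem _, fun mu h => by simp at h⟩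

lemma CC.add {z w : AA B Λ} (hz : CC Q z) (hw : CC Q w) : CC Q (z + w) := by
  refine ⟨Subalgebra.add_mem _ hz.1 hw.1, fun mu h => ?_⟩
  by_cases h1 : z.coeff mu = 0
  · refine hw.2 mu fun h2 => h ?_
    rw [AddMonoidAlgebra.coeff_add, Finsupp.add_apply, h1, h2, add_zero]
  · exact hz.2 mu h1

lemma CC.sub {z w : AA B Λ} (hz : CC Q z) (hw : CC Q w) : CC Q (z - w) := by
  refine ⟨Subalgebra.sub_mem _ hz.1 hw.1, fun mu h => ?_⟩
  by_cases h1 : z.coeff mu = 0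
  · refine hw.2 mu fun h2 => h ?_
    rw [AddMonoidAlgebra.coeff_sub, Finsupp.sub_apply, h1, h2, sub_zero]
  · exact hz.2 mu h1

lemma CC.smul {z : AA B Λ} (hz : CC Q z) (c : Λ) : CC Q (c • z) := by
  refine ⟨Subalgebra.smul_mem _ hz.1 c, fun mu h => hz.2 mu fun h1 => h ?_⟩
  rw [AddMonoidAlgebra.coeff_smul, Finsupp.smul_apply, h1, smul_zero]

lemma CC.sum {ι : Type*} (s : Finset ι) {f : ι → AA B Λ} (hf : ∀ i ∈ s, CC Q (f i)) :
    CC Q (∑ i ∈ s, f i) := by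
  classical
  induction s using Finset.induction_on with
  | empty => simpa using CC.zero
  | insert a s ha ih =>
    rw [Finset.sum_insert ha]
    exact CC.add (hf a (Finset.mem_insert_self a s))
      (ih fun i hi => hf i (Finset.mem_insert_of_mem hi))

variable (Q) in
/-- `y` has leading exponent `lam` with coefficient `h e(lam)` -/
structure Lead (lam : B → ℤ) (h : SS B Λ) (y : AA B Λ) : Prop where
  cc : CC Q y
  lead : y.coeff lam = toK h * Q.e lam
  nrm_le : ∀ mu, y.coeff mu ≠ 0 → nrm mu ≤ nrm lam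
  orb : ∀ mu, y.coeff mu ≠ 0 → nrm mu = nrm lam → ∃ σ ∈ Q.W, mu = P291.lact σ lam

lemma exists_lead [Algebra ℚ Λ] (hQ : Q.NonzeroLoops) {lam : B → ℤ} (hl : Small Q lam)
    {h : SS B Λ} (hh : Q.InvL lam h) : ∃ y, Lead Q lam h y := by
  obtain ⟨τ, hτ, hs, hτl⟩ := exists_MT Q hQ h hh
  obtain ⟨hl', hn, -⟩ := MT_lead Q hQ hτ hs
  refine ⟨Q.MT (len lam) τ, ⟨MT_mem Q _ hτ, ?_⟩, by rw [hl', hτl], fun mu h => (hn mu h).1,
    fun mu h => (hn mu h).2⟩
  intro mu hmu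
  rw [MT_coeff] at hmu
  obtain ⟨V, hV, hV0⟩ := Finset.exists_ne_zero_of_sum_ne_zero hmu
  simp only [Finset.mem_filter, Finset.mem_univ, true_and] at hV
  have hτV : τ V ≠ 0 := by
    intro h
    rw [h] at hV0
    simp at hV0
  have horb := hs V hτV
  subst hV
  exact ⟨entries_le Q hl.1 V horb, fun i => by rw [charge_eq Q V horb, hl.2]⟩

lemma Lead.sum {ι : Type*} (s : Finset ι) {lam : B → ℤ} {h : ι → SS B Λ} {y : ι → AA B Λ}
    (hy : ∀ i ∈ s, Lead Q lam (h i) (y i)) : Lead Q lam (∑ i ∈ s, h i) (∑ i ∈ s, y i) := by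
  have hc : ∀ mu, (∑ i ∈ s, y i).coeff mu = ∑ i ∈ s, (y i).coeff mu := fun mu => by
    rw [AddMonoidAlgebra.coeff_sum, Finsupp.finsetSum_apply]
  refine ⟨CC.sum s fun i hi => (hy i hi).cc, ?_, ?_, ?_⟩
  · rw [hc, Finset.sum_congr rfl fun i hi => (hy i hi).lead, ← Finset.sum_mul]
    congr 1
    exact (map_sum (algebraMap (SS B Λ) (KK B Λ)) _ _).symm
  · intro mu hmu
    rw [hc] at hmu
    obtain ⟨p, hp, hp0⟩ := Finset.exists_ne_zero_of_sum_ne_zero hmu
    exact (hy p hp).nrm_le mu hp0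
  · intro mu hmu
    rw [hc] at hmu
    obtain ⟨p, hp, hp0⟩ := Finset.exists_ne_zero_of_sum_ne_zero hmu
    exact (hy p hp).orb mu hp0

lemma nrm_eq_zero {lam : B → ℤ} (h : nrm lam ≤ 0) : lam = 0 := by
  funext b
  have hle : lam b ^ 2 ≤ nrm lam :=
    Finset.single_le_sum (f := fun b => lam b ^ 2) (fun b _ => sq_nonneg (lam b))
      (Finset.mem_univ b)
  exact pow_eq_zero_iff (two_ne_zero) |>.1 (le_antisymm (hle.trans h) (sq_nonneg _))

lemma nrm_nonneg (lam : B → ℤ) : 0 ≤ nrm lam := Finset.sum_nonneg fun b _ => sq_nonneg _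

/-- if `psi(h) = 0` the element can be chosen with zero constant coefficient -/
lemma exists_lead0 [Algebra ℚ Λ] (hQ : Q.NonzeroLoops) {lam : B → ℤ} (hl : Small Q lam)
    {cl : B → B} (hcl : Q.IsCl lam cl) {h : SS B Λ} (hh : Q.InvL lam h)
    (h0 : rename cl h = 0) : ∃ y, Lead Q lam h y ∧ y.coeff 0 = 0 := by
  classical
  by_cases hne : lam = 0
  · subst hne
    have hcl' : cl = id := by
      funext b
      exact hcl.1 b (by simp)
    rw [hcl', rename_id] at h0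
    have h0' : h = 0 := by simpa using h0
    subst h0'
    refine ⟨0, ⟨CC.zero, by simp [toK], fun mu h => ?_, fun mu h => ?_⟩, by simp⟩ <;> simp at h
  obtain ⟨s, a, ha, hsum⟩ := ker_cl Q hl.1 hl.2 hcl hh h0
  have hY : ∀ p : ℕ × I, ∃ y : AA B Λ, p ∈ s → Lead Q lam (a p * Q.wps p.1 p.2 lam) y ∧
      y.coeff 0 = 0 := by
    intro p
    by_cases hp : p ∈ s
    · obtain ⟨y, hy, -, hy0, hyl, hys⟩ := exists_corr Q hQ hne hl.1 hl.2 (ha p hp) p.1 p.2
      exact ⟨y, fun _ => ⟨⟨⟨hy, fun mu h => ⟨(hys mu h).1, (hys mu h).2.1⟩⟩, hyl,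
        fun mu h => (hys mu h).2.2.1, fun mu h => (hys mu h).2.2.2⟩, hy0⟩⟩
    · exact ⟨0, fun h => absurd h hp⟩
  choose y hy using hY
  refine ⟨∑ p ∈ s, y p, ?_, ?_⟩
  · rw [hsum]
    exact Lead.sum s fun p hp => (hy p hp).1
  · rw [AddMonoidAlgebra.coeff_sum, Finsupp.finsetSum_apply]
    exact Finset.sum_eq_zero fun p hp => (hy p hp).2

section hom

variable {k : Type*} [Field k] [Algebra k Λ]
variable {G : ℕ → Submodule k (SS B Λ)} [GradedAlgebra G]

/-- homogeneous version -/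
lemma exists_lead_hom [Algebra ℚ Λ] (hQ : Q.NonzeroLoops) (hG : Compat Q G) {lam : B → ℤ}
    (hl : Small Q lam) {h : SS B Λ} (hh : Q.InvL lam h) {m : ℤ} (hm : h ∈ GZ G m) :
    ∃ y, Lead Q lam h y ∧ HomA G (m + dege Q lam) y := by
  obtain ⟨y, hy⟩ := exists_lead hQ hl hh
  obtain ⟨z, hzA, hzh, hz0, hzl⟩ := A_comp hG hy.cc.1 (m + dege Q lam)
  have hne : ∀ mu, z.coeff mu ≠ 0 → y.coeff mu ≠ 0 := fun mu h h' => h (hz0 mu h')
  refine ⟨z, ⟨⟨hzA, fun mu h => hy.cc.2 mu (hne mu h)⟩, ?_, fun mu h => hy.nrm_le mu (hne mu h),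
    fun mu h => hy.orb mu (hne mu h)⟩, hzh⟩
  rw [hzl lam, hy.lead]
  rw [hy.lead]
  exact (IsHom.toK hm).mul (e_hom hG lam)

end hom

end H846

end Vale.Agent.P291
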