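import Vale.Agent.P291.HCore
import Vale.Agent.P291.H846.Lead

/-!
# P291 / H846: the grading given by a scaling datum
-/

set_option linter.unusedSectionVars false

open MvPolynomial

namespace Vale.Agent.P291

namespace H846

section

variable {k Λ : Type*} [Field k] [CharZero k] [CommRing Λ] [Algebra k Λ]
variable (S : Scal k Λ) (B : Type*)

lemma algMap_SS (c : k) : algebraMap k (SS B Λ) c = C (algebraMap k Λ c) := by
  rw [IsScalarTower.algebraMap_apply k Λ (SS B Λ), MvPolynomial.algebraMap_eq]

/-- scaling as a linear map -/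
noncomputable def sSl : SS B Λ →ₗ[k] SS B Λ where
  toFun := S.sS B
  map_add' := map_add _
  map_smul' := fun c f => by
    rw [Algebra.smul_def, Algebra.smul_def, map_mul, algMap_SS, Scal.sS_C, S.θ.commutes]
    simp

/-- homogeneous polynomials of degree `n` -/
noncomputable def GG (n : ℕ) : Submodule k (SS B Λ) :=
  Module.End.eigenspace (sSl S B) ((2 : k) ^ n)

lemma mem_GG {n : ℕ} {f : SS B Λ} : f ∈ GG S B n ↔ S.sS B f = 2 ^ n * f := by
  unfold GG
  rw [Module.End.mem_eigenspace_iff]
  change S.sS B f = _ ↔ _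
  rw [Algebra.smul_def, map_pow, map_ofNat]

lemma indep_GG : iSupIndep (GG S B) := by
  have h := Module.End.eigenspaces_iSupIndep (sSl S B)
  refine h.comp (f := fun n : ℕ => (2 : k) ^ n) ?_
  intro a b hab
  have : ((2 ^ a : ℕ) : k) = ((2 ^ b : ℕ) : k) := by push_cast; exact hab
  exact Nat.pow_right_injective (le_refl 2) (Nat.cast_injective this)

instance gradedMonoid_GG : SetLike.GradedMonoid (GG S B) where
  one_mem := by rw [mem_GG]; simp
  mul_mem := by
    intro i j f g hf hg
    rw [mem_GG] at *
    rw [map_mul, hf, hg, pow_add]; ring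

lemma C_mem_GG {n : ℕ} {c : Λ} (h : S.θ c = 2 ^ n * c) : (C c : SS B Λ) ∈ GG S B n := by
  rw [mem_GG, Scal.sS_C, h, map_mul, map_pow, map_ofNat]

lemma X_mem_GG (b : B) : (X b : SS B Λ) ∈ GG S B 1 := by
  rw [mem_GG, Scal.sS_X]; simp

lemma iSup_GG : iSup (GG S B) = ⊤ := by
  rw [eq_top_iff]
  rintro f -
  induction f using MvPolynomial.induction_on with
  | C c =>
    obtain ⟨f, hf, hc⟩ := S.dec c
    rw [hc]
    unfold Finsupp.sum
    rw [map_sum]
    exact Submodule.sum_mem _ fun d _ => Submodule.mem_iSup_of_mem d (C_mem_GG S B (hf d))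
  | add p q hp hq => exact Submodule.add_mem _ hp hq
  | mul_X p b hp =>
    refine Submodule.iSup_induction (GG S B) (motive := fun p => p * X b ∈ iSup (GG S B)) hp ?_ ?_ ?_
    · intro n x hx
      exact Submodule.mem_iSup_of_mem (n + 1) (SetLike.mul_mem_graded hx (X_mem_GG S B b))
    · rw [zero_mul]; exact Submodule.zero_mem _
    · intro x y hx hy
      rw [add_mul]; exact Submodule.add_mem _ hx hy

open scoped Classical in
lemma internal_GG : DirectSum.IsInternal (GG S B) :=
  (DirectSum.isInternal_submodule_iff_iSupIndep_and_iSup_eq_top _).mpr ⟨indep_GG S B, iSup_GG S B⟩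

open scoped Classical in
noncomputable instance gradedAlgebra_GG : GradedAlgebra (GG S B) :=
  { gradedMonoid_GG S B, (internal_GG S B).chooseDecomposition with }

end

section

variable {k I E B Λ : Type*} [Field k] [CharZero k] [Fintype E] [DecidableEq I] [Fintype B]
  [DecidableEq B] [CommRing Λ] [IsDomain Λ] [Algebra k Λ]
variable {Q : QD I E B Λ} {S : Scal k Λ}

lemma sS_rename {B B' : Type*} (g : B → B') (f : SS B Λ) :
    S.sS B' (rename g f) = rename g (S.sS B f) := by
  induction f using MvPolynomial.induction_on with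
  | C c => rw [rename_C, Scal.sS_C, Scal.sS_C, rename_C]
  | add p q hp hq => simp only [map_add, hp, hq]
  | mul_X p b hp => simp only [map_mul, hp, rename_X, Scal.sS_X, map_ofNat]

lemma compat (hS : Q.Lin S) : Compat Q (GG S B) where
  X_mem := X_mem_GG S B
  t_mem := fun a => C_mem_GG S B (n := 1) (by rw [hS a]; simp)
  ren := fun g n f hf => by
    rw [mem_GG] at *
    rw [sS_rename, hf, map_mul, map_pow, map_ofNat]

lemma two_ne_zero_KK (k' : Type*) [Field k'] [CharZero k'] [Algebra k' Λ] :
    (2 : KK B Λ) ≠ 0 := by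
  have h : (algebraMap k' Λ 2) ≠ 0 := by
    rw [Ne, map_eq_zero_iff _ (algebraMap k' Λ).injective]
    exact two_ne_zero
  have h2 : (2 : KK B Λ) = toK (C (algebraMap k' Λ 2)) := by
    simp only [toK, map_ofNat]
  rw [h2]
  intro h0
  apply h
  have := IsFractionRing.injective (SS B Λ) (KK B Λ) (h0.trans (map_zero _).symm)
  exact C_injective _ _ (by rw [this, map_zero])

omit [Fintype B] [DecidableEq B] [IsDomain Λ] in
lemma toK_two_pow_mul (n : ℕ) (f : SS B Λ) : (toK (2 ^ n * f) : KK B Λ) = 2 ^ n * toK f := by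
  unfold toK
  rw [map_mul, map_pow, map_ofNat]

/-- homogeneous in the sense of quotients implies homogeneous in the sense of the scaling -/
lemma hom_of_isHom {d : ℤ} {f : KK B Λ} (h : IsHom (GG S B) d f) : S.Hom d f := by
  have h2 : (2 : KK B Λ) ≠ 0 := two_ne_zero_KK k
  obtain ⟨n, q, hq, hq0, p, hp, hfq⟩ := h
  have hq1 : toK q ≠ 0 := fun h0 => hq0 (toK_inj (by rw [h0]; exact (map_zero _).symm))
  rw [mem_GG] at hq
  have h3 := congrArg (S.sK B) hfq
  rw [map_mul, Scal.sK_toK, Scal.sK_toK, hq] at h3
  by_cases hd : 0 ≤ d + n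
  · obtain ⟨m, hm⟩ := Int.eq_ofNat_of_zero_le hd
    have hp' : p ∈ GG S B m := by rwa [← GZ_natCast (GG S B), ← hm]
    rw [mem_GG] at hp'
    rw [hp'] at h3
    unfold Scal.Hom
    rw [toK_two_pow_mul, toK_two_pow_mul, ← hfq] at h3
    have e3 : (2 : KK B Λ) ^ m = 2 ^ d * 2 ^ n := by
      rw [← zpow_natCast, ← zpow_natCast, ← zpow_add₀ h2, hm]
    rw [e3] at h3
    have e4 : (S.sK B f) * (2 ^ n * toK q) = (2 ^ d * f) * (2 ^ n * toK q) := by
      rw [h3]; ring
    exact mul_right_cancel₀ (mul_ne_zero (pow_ne_zero _ h2) hq1) e4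
  · rw [GZ_neg (GG S B) (not_le.mp hd), Submodule.mem_bot] at hp
    subst hp
    have : f = 0 := by
      have : f * toK q = 0 := by rw [hfq]; exact map_zero _
      rcases mul_eq_zero.mp this with h | h
      · exact h
      · exact absurd h hq1
    rw [this]
    simp [Scal.Hom]

/-- a polynomial that is homogeneous in the sense of the scaling -/
lemma mem_of_hom {d : ℤ} {h : SS B Λ} (hh : S.Hom d (toK h)) : h ∈ GZ (GG S B) d := by
  classical
  have h2 : (2 : KK B Λ) ≠ 0 := two_ne_zero_KK k
  unfold Scal.Hom at hh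
  rw [Scal.sK_toK] at hh
  by_cases hd : 0 ≤ d
  · obtain ⟨m, rfl⟩ := Int.eq_ofNat_of_zero_le hd
    rw [GZ_natCast, mem_GG]
    apply toK_inj
    rw [hh, toK_two_pow_mul, zpow_natCast]
  · obtain ⟨n, hn⟩ := Int.eq_ofNat_of_zero_le (show 0 ≤ -d by omega)
    have hn0 : 0 < n := by omega
    -- `2^n * sS h = h`
    have h3 : 2 ^ n * S.sS B h = h := by
      apply toK_inj
      rw [toK_two_pow_mul, hh, ← mul_assoc, ← zpow_natCast, ← zpow_add₀ h2, ← hn]
      simp
    have h4 : ∀ m : ℕ, ((DirectSum.decompose (GG S B) h) m : SS B Λ) = 0 := by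
      intro m
      have h5 : ∀ m : ℕ, ((DirectSum.decompose (GG S B) (S.sS B h)) m : SS B Λ) =
          2 ^ m * ((DirectSum.decompose (GG S B) h) m : SS B Λ) := by
        intro m
        conv_lhs => rw [← DirectSum.sum_support_decompose (GG S B) h]
        rw [map_sum, DirectSum.decompose_sum, DFinsupp.finsetSum_apply,
          AddSubmonoidClass.coe_finsetSum]
        have h6 : ∀ i, S.sS B ((DirectSum.decompose (GG S B) h) i : SS B Λ) =
            2 ^ i * ((DirectSum.decompose (GG S B) h) i : SS B Λ) := fun i =>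
          (mem_GG S B).mp (Submodule.coe_mem _)
        have h7 : ∀ i, (2 : SS B Λ) ^ i * ((DirectSum.decompose (GG S B) h) i : SS B Λ) ∈
            GG S B i := fun i => by
          rw [← h6]
          rw [mem_GG, h6, map_mul, h6, map_pow, map_ofNat]
        rw [Finset.sum_eq_single m]
        · rw [h6, DirectSum.decompose_of_mem_same _ (h7 m)]
        · intro i _ hi
          rw [h6, DirectSum.decompose_of_mem_ne _ (h7 i) hi]
        · intro hm
          have : ((DirectSum.decompose (GG S B) h) m : SS B Λ) = 0 := by simpa using hm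
          rw [this]; simp
      have h8 : ((DirectSum.decompose (GG S B) h) m : SS B Λ) =
          2 ^ n * ((DirectSum.decompose (GG S B) (S.sS B h)) m : SS B Λ) := by
        conv_lhs => rw [← h3]
        have h15 : ∀ x : SS B Λ, (2 : SS B Λ) ^ n * x = ((2 : k) ^ n) • x := by
          intro x
          rw [Algebra.smul_def, map_pow, map_ofNat]
        rw [h15, h15, DirectSum.decompose_smul]
        rfl
      rw [h5] at h8
      have h9 : ((2 : SS B Λ) ^ (n + m) - 1) * ((DirectSum.decompose (GG S B) h) m : SS B Λ) = 0 := by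
        rw [sub_mul, one_mul, pow_add, mul_assoc, ← h8, sub_self]
      rcases mul_eq_zero.mp h9 with h10 | h10
      · exfalso
        have : CharZero Λ := charZero_of_injective_algebraMap (algebraMap k Λ).injective
        have : CharZero (SS B Λ) := charZero_of_injective_algebraMap (C_injective B Λ)
        have h11 : ((2 ^ (n + m) : ℕ) : SS B Λ) = ((1 : ℕ) : SS B Λ) := by
          push_cast; exact sub_eq_zero.mp h10
        have h12 := Nat.cast_injective h11
        have h13 : 1 < 2 ^ (n + m) := Nat.one_lt_two_pow (by omega)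
        omega
      · exact h10
    have h14 : h = 0 := by
      rw [← DirectSum.sum_support_decompose (GG S B) h]
      exact Finset.sum_eq_zero fun i _ => h4 i
    rw [h14]
    exact Submodule.zero_mem _

end

end H846

end Vale.Agent.P291
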